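import Crest.Agent.X262.Tr89.Fib
import Crest.Agent.X262.Hb.Sat1
import Crest.Agent.X262.Lin62.Bez

/-!
# Row 262, road B (helper89): projective bundles

* `PInd k x`    : no homogeneous relation; `pind_of_dim`, `PInd.algInd`;
* `bnum_proj`   : the degree of projective space is one; `le_dim_of_bnum`;
* `ex g U₀`     : the extension of a subspace along `K → E`, rescaled by `g`;
* `itg_cq`      : `∫_E Q_U(c1 l) π^* φ = ((-l)^{r-1})_{E/K} ∫_K φ`.
-/

set_option autoImplicit false
set_option linter.unusedSectionVars false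

noncomputable section

namespace Crest.Agent.X262.Tr89

open Crest.Agent.X277 Crest.Agent.X277.BD Crest.Agent.X277.Pst Crest.Agent.X277.BD.Cyc
open Crest.Agent.X262.Geo Crest.Agent.X262.Hb
open Crest.Agent.X262.Lin62 (mx1 alg_of_top eft_of_top adjoin_sub dim_le_card)
open List (replicate)
open IntermediateField (adjoin)
open Set (range)

section PN

open MvPolynomial

variable {k F ι : Type} [Field k] [Field F] [Algebra k F] {n : ℕ}

/-- no homogeneous relation -/
def PInd (k : Type) [Field k] [Algebra k F] (x : ι → F) : Prop :=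
  ∀ (e : ℕ) (G : MvPolynomial ι k), G.IsHomogeneous e → aeval x G = 0 → G = 0

theorem PInd.ne {x : ι → F} (h : PInd k x) (i : ι) : x i ≠ 0 := fun h0 =>
  X_ne_zero i (h 1 _ (isHomogeneous_X k i) (by rw [aeval_X, h0]))

theorem PInd.smul {x : ι → F} (h : PInd k x) {c : F} (hc : c ≠ 0) : PInd k (c • x) :=
  fun e G hG h0 => h e G hG (by
    rw [Brg.Hyp0.aeval_smul hG] at h0
    exact (mul_eq_zero.1 h0).resolve_left (pow_ne_zero _ hc))

theorem PInd.comp {ι' : Type} {x : ι → F} (h : PInd k x) {f : ι' → ι} (hf : Function.Injective f) :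
    PInd k (x ∘ f) := fun e G hG h0 =>
  rename_injective f hf ((h e _ hG.rename_isHomogeneous (by rwa [aeval_rename])).trans
    (map_zero _).symm)

theorem eq_smul_cons {x : Fin (n + 1) → F} (h : x 0 ≠ 0) :
    x = x 0 • (Fin.cons 1 fun i => x i.succ / x 0 : Fin (n + 1) → F) := by
  funext i
  refine Fin.cases ?_ (fun i => ?_) i
  · simp
  · simp [mul_div_cancel₀ _ h]

theorem PInd.algInd {x : Fin (n + 1) → F} (h : PInd k x) :
    AlgebraicIndependent k fun i : Fin n => x i.succ / x 0 := by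
  rw [algebraicIndependent_iff]
  intro q hq
  have h1 := Brg.Cubic.deh_hom (le_refl q.totalDegree)
  have h2 := Brg.Cubic.hom_isHomogeneous q.totalDegree q
  rw [← h1, h _ _ h2, map_zero]
  rw [eq_smul_cons (h.ne 0), Brg.Hyp0.aeval_smul h2, Brg.Hyp0.aeval_cons, h1, hq, mul_zero]

theorem pind_of_algInd [Infinite k] {x : Fin (n + 1) → F} (h0 : x 0 ≠ 0)
    (h : AlgebraicIndependent k fun i : Fin n => x i.succ / x 0) : PInd k x := by
  rw [eq_smul_cons h0]
  exact PInd.smul (fun e G hG h1 => zero_dvd_iff.1 ((Brg.Hyp0.gp_free h e G hG).1 h1)) h0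

variable [CharZero k] [Fintype ι]

theorem card_le_dim [Algebra.EssFiniteType k F] {s : ι → F} (h : AlgebraicIndependent k s) :
    Fintype.card ι ≤ dim k F := by
  have h1 := h.cardinalMk_le_trdeg
  rw [trdeg_eq_dim, Cardinal.mk_fintype] at h1
  exact_mod_cast h1

theorem algInd_of_dim {s : ι → F} (h : adjoin k (range s) = ⊤) (hd : Fintype.card ι ≤ dim k F) :
    AlgebraicIndependent k s := by
  have := eft_of_top h
  have := alg_of_top h
  refine (Algebra.IsAlgebraic.isTranscendenceBasis_of_le_trdeg_of_finite k s ?_).1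
  rw [trdeg_eq_dim, Cardinal.mk_fintype]
  exact_mod_cast hd

theorem dim_eq_card {s : ι → F} (h : adjoin k (range s) = ⊤) (hs : AlgebraicIndependent k s) :
    dim k F = Fintype.card ι :=
  have := eft_of_top h
  (dim_le_card h).antisymm (card_le_dim hs)

theorem algInd_of_dim' {s : ι → F} (hd : Fintype.card ι ≤ dim k (adjoin k (range s))) :
    AlgebraicIndependent k s :=
  (algInd_of_dim (adjoin_sub s) hd).map' (f := (adjoin k (range s)).val) Subtype.val_injective

theorem pind_of_dim {x : Fin (n + 1) → F} {i : Fin (n + 1)} (h0 : x i ≠ 0)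
    (hd : n ≤ dim k (adjoin k (range fun j => x j / x i))) : PInd k x := by
  have h1 : (x ∘ Equiv.swap 0 i) 0 = x i := by simp
  have h2 : adjoin k (range fun j => x j / x i) =
      adjoin k (range fun j : Fin n => (x ∘ Equiv.swap 0 i) j.succ / (x ∘ Equiv.swap 0 i) 0) := by
    rw [h1]
    refine le_antisymm (IntermediateField.adjoin_le_iff.2 ?_)
      (IntermediateField.adjoin.mono _ _ _ (by rintro _ ⟨j, rfl⟩; exact ⟨_, rfl⟩))
    rintro _ ⟨j, rfl⟩
    obtain ⟨l, rfl⟩ := (Equiv.swap 0 i).surjective j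
    refine Fin.cases ?_ (fun l => IntermediateField.subset_adjoin _ _ ⟨l, rfl⟩) l
    simp [div_self h0]
  have h3 := (pind_of_algInd (k := k) (h1 ▸ h0)
    (algInd_of_dim' (by rw [← h2]; simpa using hd))).comp (Equiv.swap 0 i).injective
  convert h3 using 1
  funext j
  simp

variable [Algebra.EssFiniteType k F]

theorem lin_mxf_div {x : ι → F} {c : F} (hc : c ≠ 0) (h : ∃ i, x i ≠ 0) :
    Lin (mxf k x) (mxf k fun j => x j / c) := by
  refine ⟨c, hc, (sub_eq_iff_eq_add.1 (eq_mxf (fun j => (mem_Sec_sub_pr hc).2 ?_) fun W => ?_))⟩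
  · rw [div_mul_cancel₀ _ hc]; exact mem_Sec_mxf x j
  · obtain ⟨j, hj⟩ := exists_val_mxf (k := k) h W
    exact ⟨j, by rw [map_div₀, hj, val_sub, val_pr hc]⟩

theorem bnum_rep {a b : BD k F} (h : Lin a b) (m : ℕ) :
    bnum (replicate m a) = bnum (replicate m b) := by
  simpa using Loc.bnum_rep_lin h m []

/-- the degree of projective space -/
theorem bnum_proj {x : Fin (n + 1) → F} (h0 : x 0 ≠ 0)
    (h : adjoin k (range fun i : Fin n => x i.succ / x 0) = ⊤) (hd : dim k F = n) :
    bnum (replicate n (mxf k x)) = 1 := by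
  have h1 : (fun j => x j / x 0) = (Fin.cons 1 fun i => x i.succ / x 0 : Fin (n + 1) → F) := by
    funext j
    refine Fin.cases ?_ (fun j => rfl) j
    simp [div_self h0]
  have h2 : qf k x = ⊤ := top_unique (h ▸ IntermediateField.adjoin_le_iff.2 (by
    rintro _ ⟨j, rfl⟩; exact div_mem_qf x 0 j.succ))
  have h3 : VA (mxf k x) := va_mxf (by rw [h2]; infer_instance)
  refine le_antisymm ?_ (bnum_pos (by simp [hd]) fun a ha => ?_)
  · rw [bnum_rep (lin_mxf_div h0 ⟨0, h0⟩), h1]
    exact Lin62.pn n h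
  · rw [List.eq_of_mem_replicate ha]
    exact ⟨h3.nef, h3.big⟩

theorem le_dim_of_bnum {x : ι → F} {i : ι} (h0 : x i ≠ 0) (h : bnum (replicate n (mxf k x)) ≠ 0) :
    n ≤ dim k (adjoin k (range fun j => x j / x i)) := by
  by_contra hc
  have := eft_of_top (adjoin_sub (k := k) fun j => x j / x i)
  have h1 := bnum_pb_zero (adjoin k (range fun j => x j / x i)).val
    (l := replicate n (mxf k fun j => ⟨x j / x i, IntermediateField.subset_adjoin _ _ ⟨j, rfl⟩⟩))
    (by simpa using hc) []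
  rw [List.map_replicate, pb_mxf, List.append_nil] at h1
  exact h ((bnum_rep (lin_mxf_div h0 ⟨i, h0⟩) n).trans h1)

end PN

open Polynomial

variable {B : Th} {K E : Type} [Field K] [Algebra ℂ K] [Field E] [Algebra ℂ E]

theorem eval_cl (s : List (BD ℂ E)) (l : BD ℂ E) :
    (B.cl s).eval (B.c1 l) = pc B (s.map (· - l)) := by
  induction s with
  | nil => simp [Th.cl, pc]
  | cons b s ih =>
    rw [List.map_cons, pc_cons, ← ih]
    simp [Th.cl]

theorem eval_divX_cons (b : BD ℂ E) (s : List (BD ℂ E)) (δ : B.H E) :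
    (-(B.cl (b :: s)).divX).eval δ = B.c1 b * (-(B.cl s).divX).eval δ + (B.cl s).eval δ := by
  have h : (B.cl (b :: s)).divX = C (B.c1 b) * (B.cl s).divX - B.cl s := by
    rw [show B.cl (b :: s) = (C (B.c1 b) - X) * B.cl s by simp [Th.cl]]
    ext n
    simp [sub_mul, coeff_divX]
  rw [h]
  simp only [eval_neg, eval_sub, eval_mul, eval_C]
  ring

variable [Algebra.EssFiniteType ℂ K] [CharZero K] [Algebra K E] [IsScalarTower ℂ K E]
  [Algebra.EssFiniteType ℂ E] [Algebra.EssFiniteType K E]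

theorem itg_vert (hB : B.Ax) (φ : B.H K) (l : BD ℂ E) : ∀ (s m : List (BD ℂ E)),
    (∃ b ∈ m, Lin (up K b) 0) → s.length + m.length + dim ℂ K ≤ dim ℂ E + 1 →
    B.itg E ((-(B.cl s).divX).eval (B.c1 l) * pc B m *
      B.pb (LP.hom (IsScalarTower.toAlgHom ℂ K E)) φ) = 0
  | [], m, _, _ => by simp [Th.cl, divX_one]
  | a :: s, m, ⟨b, hb, h0⟩, h => by
    have h1 := itg_vert hB φ l s (a :: m) ⟨b, by simp [hb], h0⟩ (by simp at h ⊢; omega)
    rw [pc_cons] at h1
    rw [eval_divX_cons, add_mul, add_mul, map_add, mul_comm (B.c1 a), mul_assoc _ (B.c1 a), h1,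
      zero_add, eval_cl, ← pc_append, fib hB _ _ (by simp at h ⊢; omega)]
    obtain ⟨m₁, m₂, rfl⟩ := List.append_of_mem hb
    rw [← List.append_assoc, List.map_append, List.map_cons, bnum_mid, h0.bnum_eq, bnum_zero,
      Int.cast_zero, zero_mul]

theorem itg_cl (hB : B.Ax) (φ : B.H K) (l : BD ℂ E) {s : List (BD ℂ E)} {r : ℕ}
    (hr : s.length = r + 1) (hs : ∀ b ∈ s, Lin (up K b) 0) (h : r + dim ℂ K ≤ dim ℂ E) :
    B.itg E ((-(B.cl s).divX).eval (B.c1 l) * B.pb (LP.hom (IsScalarTower.toAlgHom ℂ K E)) φ) =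
      bnum (replicate r (up K (-l))) * B.itg K φ := by
  obtain ⟨a, s, rfl⟩ := List.exists_cons_of_length_eq_add_one hr
  obtain rfl : s.length = r := by simpa using hr
  have h1 := itg_vert hB φ l s [a] ⟨a, by simp, hs a (by simp)⟩ (by simp; omega)
  rw [pc_cons, pc_nil, mul_one] at h1
  rw [eval_divX_cons, add_mul, map_add, mul_comm (B.c1 a), h1, zero_add, eval_cl,
    fib hB _ _ (by simpa using h)]
  congr 2
  refine bnum_congr' ?_
  rw [← List.map_const', List.map_map, List.forall₂_map_left_iff, List.forall₂_map_right_iff,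
    List.forall₂_same]
  intro b hb
  simpa [sub_eq_add_neg] using (hs b (by simp [hb])).add (Lin.rfl (a := -up K l))

section Ex

variable {P : Type} [Fintype P]

/-- extension of scalars of a vector, rescaled -/
def exv (g : P → E) (x : P → K) : P → E := fun p => g p * algebraMap K E (x p)

/-- extension of scalars of a subspace, rescaled -/
def ex (g : P → E) (U : Submodule K (P → K)) : Submodule E (P → E) :=
  Submodule.span E (exv g '' (U : Set (P → K)))

variable {g : P → E} {a : P → BD ℂ E} {W U : Submodule K (P → K)} {x : P → K}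

theorem ex_bot : ex g (⊥ : Submodule K (P → K)) = ⊥ := by
  rw [ex, Submodule.span_eq_bot]
  rintro _ ⟨y, hy, rfl⟩
  rw [(Submodule.mem_bot K).1 hy]
  funext p
  simp [exv]

theorem ex_sup : ex g (W ⊔ K ∙ x) = ex g W ⊔ E ∙ exv g x := by
  refine le_antisymm (Submodule.span_le.2 ?_) (sup_le
    (Submodule.span_mono (Set.image_mono (le_sup_left : W ≤ W ⊔ K ∙ x)))
    ((Submodule.span_singleton_le_iff_mem _ _).2 (Submodule.subset_span
      ⟨x, Submodule.mem_sup_right (Submodule.mem_span_singleton_self x), rfl⟩)))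
  rintro _ ⟨y, hy, rfl⟩
  obtain ⟨w, hw, z, hz, rfl⟩ := Submodule.mem_sup.1 hy
  obtain ⟨c, rfl⟩ := Submodule.mem_span_singleton.1 hz
  have h : exv g (w + c • x) = exv g w + algebraMap K E c • exv g x := by
    funext p
    simp only [exv, Pi.add_apply, Pi.smul_apply, smul_eq_mul, map_add, map_mul]
    ring
  rw [h]
  exact Submodule.add_mem_sup (Submodule.subset_span ⟨w, hw, rfl⟩)
    (Submodule.smul_mem _ _ (Submodule.mem_span_singleton_self _))

theorem ds_ex (hg : ∀ p, g p ≠ 0) (ha : ∀ p, up K (a p) = pr K (g p)) (hx : x ∉ W) (V' : RZ K E) :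
    ds a (V'.dn ℂ) (ex g W) (exv g x) = 1 := by
  classical
  have h1 : ∀ p, (a p).val (V'.dn ℂ) = (V'.dn ℂ).v (g p) := fun p =>
    (val_up (a p) V').symm.trans (by rw [ha, val_pr (hg p)]; rfl)
  have h0 : ∀ c : K, (V'.dn ℂ).v (algebraMap K E c) ≤ 1 := V'.v_alg_le
  have h0' : ∀ c : K, c ≠ 0 → (V'.dn ℂ).v (algebraMap K E c) = 1 := fun c hc => V'.v_alg hc
  generalize V'.dn ℂ = V at h1 h0 h0'
  refine le_antisymm (ds_le_nm.trans (nm_le.2 fun p => ?_)) (le_ds.2 fun w hw => ?_)
  · rw [h1, one_mul, exv, map_mul]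
    exact mul_le_of_le_one_right' (h0 _)
  obtain ⟨μ, h2, h3⟩ := Submodule.exists_le_ker_of_notMem hx
  let ν : (P → E) →ₗ[E] E := ∑ p, (algebraMap K E (μ (Pi.single p 1)) / g p) • LinearMap.proj p
  have h4 : ∀ z, ν z = ∑ p, algebraMap K E (μ (Pi.single p 1)) / g p * z p := fun z => by
    simp [ν]
  have h5 : ∀ y, ν (exv g y) = algebraMap K E (μ y) := fun y => by
    rw [h4]
    conv_rhs => rw [pi_eq_sum_univ' y, map_sum, map_sum]
    refine Finset.sum_congr rfl fun p _ => ?_
    rw [map_smul, smul_eq_mul, map_mul, exv]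
    have := hg p
    field_simp
  have h6 : ν w = 0 := by
    refine (show ex g W ≤ LinearMap.ker ν from Submodule.span_le.2 ?_) hw
    rintro _ ⟨y, hy, rfl⟩
    exact (h5 y).trans (by rw [h3 hy, map_zero])
  have h7 : V.v (ν (exv g x - w)) = 1 := by
    rw [map_sub, h6, h5, sub_zero, h0' _ h2]
  rw [← h7, h4]
  refine Valuation.map_sum_le _ fun p _ => ?_
  have h8 := div_le_nm a V (exv g x - w) p
  rw [h1] at h8
  rw [div_mul_comm, map_mul, map_div₀]
  exact (mul_le_of_le_one_right' (h0 _)).trans h8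

theorem flag_ex (hg : ∀ p, g p ≠ 0) (ha : ∀ p, up K (a p) = pr K (g p)) {l : List (P → K)}
    (h : Flag W l U) : Flag (ex g W) (l.map (exv g)) (ex g U) ∧
      ∀ b ∈ rts a (ex g W) (l.map (exv g)), up K b = 0 := by
  induction h with
  | nil W => exact ⟨Flag.nil _, by simp [rts]⟩
  | @cons W U x l hx _ ih =>
    have h1 : exv g x ∉ ex g W := fun h0 => by
      have h2 := ds_ex hg ha hx (RZ.top K E)
      rw [ds_eq_zero.2 h0] at h2
      exact zero_ne_one h2
    rw [ex_sup] at ih
    refine ⟨Flag.cons h1 ih.1, ?_⟩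
    rw [List.map_cons, rts, List.forall_mem_cons]
    refine ⟨?_, ih.2⟩
    rw [map_neg, neg_eq_zero]
    exact ext' fun V => by rw [val_up, val_dst h1, ds_ex hg ha hx]; rfl

theorem finrank_ex (hg : ∀ p, g p ≠ 0) (ha : ∀ p, up K (a p) = pr K (g p))
    (U : Submodule K (P → K)) : Module.finrank E (ex g U) = Module.finrank K U := by
  obtain ⟨l, hl⟩ := exists_flag (bot_le : ⊥ ≤ U)
  rw [(flag_ex hg ha hl).1.finrank, hl.finrank, ex_bot]
  simp

/-- the integral of the excess class over a family of lines -/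
theorem itg_cq (hB : B.Ax) (hg : ∀ p, g p ≠ 0) (ha : ∀ p, up K (a p) = pr K (g p)) {r : ℕ}
    (hr : Module.finrank K U = r + 1) (h : r + dim ℂ K ≤ dim ℂ E) (l : BD ℂ E) (φ : B.H K) :
    B.itg E ((B.cq a (ex g U)).eval (B.c1 l) * B.pb (LP.hom (IsScalarTower.toAlgHom ℂ K E)) φ) =
      bnum (replicate r (up K (-l))) * B.itg K φ := by
  obtain ⟨m, hm⟩ := exists_flag (bot_le : ⊥ ≤ U)
  obtain ⟨h1, h2⟩ := flag_ex hg ha hm
  have h3 := hm.finrank
  rw [ex_bot] at h1 h2
  rw [Th.cq, Th.cp, hB.cp2_eq h1]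
  refine itg_cl hB φ l ?_ (fun b hb => h2 b hb ▸ Lin.rfl) h
  rw [length_rts, List.length_map]
  simpa [hr] using h3.symm

end Ex

end Crest.Agent.X262.Tr89
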