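import Crest.Agent.X262.Brg.Jac

/-!
# Row 262, road B (helper89): equations with independent differentials at a generic point

`η` is a point of affine space with coordinates generating the field `κ`.
* `grd η q`      : the gradient of `q` at `η`;
* `card_add_le`  : independent gradients bound the dimension of `κ`;
* `span_of_dim`  : in the case of equality they span the gradients of all equations of `η`;
* `gen_of_span`  : and then the equations generate the ideal of `η` locally.
-/

set_option autoImplicit false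
set_option linter.unusedSectionVars false

noncomputable section

namespace Crest.Agent.X262.Tr89

open MvPolynomial IsLocalRing

variable {k κ σ ι : Type} [Field k] [Field κ] [Algebra k κ] [Fintype σ] [Fintype ι]

/-- the gradient at a point -/
def grd {B : Type} [CommRing B] [Algebra k B] (η : σ → B) (q : MvPolynomial σ k) : σ → B :=
  fun i => aeval η (pderiv i q)

theorem der_aeval {B M : Type*} [CommRing B] [Algebra k B] [AddCommGroup M] [Module B M]
    [Module k M] (D : Derivation k B M) (η : σ → B) (q : MvPolynomial σ k) :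
    D (aeval η q) = ∑ i, aeval η (pderiv i q) • D (η i) := by
  classical
  induction q using MvPolynomial.induction_on with
  | C a => simp
  | add p q hp hq => simp [hp, hq, add_smul, Finset.sum_add_distrib]
  | mul_X p i hp =>
    simp only [map_mul, aeval_X, Derivation.leibniz, hp, smul_eq_mul, map_add, pderiv_X,
      add_smul, Finset.sum_add_distrib, Finset.smul_sum]
    congr 1
    · rw [Finset.sum_eq_single i]
      · simp
      · intro j _ hj
        simp [hj.symm]
      · simp
    · refine Finset.sum_congr rfl fun j _ => ?_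
      rw [mul_smul]

variable {η : σ → κ} {s : ι → MvPolynomial σ k}

/-- the differentials of the coordinates -/
def dl (k : Type) [Field k] [Algebra k κ] (η : σ → κ) : (σ → κ) →ₗ[κ] Ω[κ⁄k] :=
  Fintype.linearCombination κ fun i => KaehlerDifferential.D k κ (η i)

theorem dl_grd (q : MvPolynomial σ k) :
    dl k η (grd η q) = KaehlerDifferential.D k κ (aeval η q) := by
  rw [der_aeval, dl, Fintype.linearCombination_apply]
  rfl

theorem dl_surj (hη : IntermediateField.adjoin k (Set.range η) = ⊤) :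
    LinearMap.range (dl k η) = ⊤ := by
  rw [eq_top_iff, ← KaehlerDifferential.span_range_derivation, Submodule.span_le]
  rintro _ ⟨x, rfl⟩
  obtain ⟨a, b, rfl⟩ := (IntermediateField.mem_adjoin_range_iff k η x).1 (hη ▸ trivial)
  rw [div_eq_mul_inv, Derivation.leibniz, Derivation.leibniz_inv, ← dl_grd, ← dl_grd]
  exact add_mem (Submodule.smul_mem _ _ (Submodule.smul_mem _ _ ⟨_, rfl⟩))
    (Submodule.smul_mem _ _ ⟨_, rfl⟩)

theorem rank_ker (hη : IntermediateField.adjoin k (Set.range η) = ⊤) :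
    Module.finrank κ Ω[κ⁄k] + Module.finrank κ (LinearMap.ker (dl k η)) = Fintype.card σ := by
  have h := (dl k η).finrank_range_add_finrank_ker
  rwa [dl_surj hη, finrank_top, Module.finrank_fintype_fun_eq_card] at h

theorem span_le_ker (hs : ∀ a, aeval η (s a) = 0) :
    Submodule.span κ (Set.range fun a => grd η (s a)) ≤ LinearMap.ker (dl k η) := by
  rw [Submodule.span_le]
  rintro _ ⟨a, rfl⟩
  change dl k η _ = 0
  rw [dl_grd, hs, map_zero]

theorem rank_add_le (hη : IntermediateField.adjoin k (Set.range η) = ⊤)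
    (hs : ∀ a, aeval η (s a) = 0) : Module.finrank κ Ω[κ⁄k] +
      Module.finrank κ (Submodule.span κ (Set.range fun a => grd η (s a))) ≤ Fintype.card σ := by
  rw [← rank_ker hη]
  exact Nat.add_le_add_left (Submodule.finrank_mono (span_le_ker hs)) _

theorem card_add_le (hη : IntermediateField.adjoin k (Set.range η) = ⊤)
    (hs : ∀ a, aeval η (s a) = 0) (hli : LinearIndependent κ fun a => grd η (s a)) :
    Module.finrank κ Ω[κ⁄k] + Fintype.card ι ≤ Fintype.card σ := by
  rw [← finrank_span_eq_card hli]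
  exact rank_add_le hη hs

theorem span_of_dim (hη : IntermediateField.adjoin k (Set.range η) = ⊤)
    (hs : ∀ a, aeval η (s a) = 0) (hli : LinearIndependent κ fun a => grd η (s a))
    (hd : Fintype.card σ ≤ Module.finrank κ Ω[κ⁄k] + Fintype.card ι) {q : MvPolynomial σ k}
    (hq : aeval η q = 0) : grd η q ∈ Submodule.span κ (Set.range fun a => grd η (s a)) := by
  have h1 := rank_ker hη
  rw [Submodule.eq_of_le_of_finrank_le (span_le_ker hs) (by rw [finrank_span_eq_card hli]; omega)]
  change dl k η _ = 0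
  rw [dl_grd, hq, map_zero]

theorem exists_section {O : Type} [CommRing O] [Algebra k O] [Algebra.FormallySmooth k κ]
    (ρ : O →ₐ[k] κ) (hsur : Function.Surjective ρ) (f : MvPolynomial σ k →ₐ[k] O)
    (hρ : ∀ x, ρ (f x) = aeval η x) :
    ∃ (ψ : κ →ₐ[k] O ⧸ RingHom.ker ρ ^ 2) (δ : σ → O ⧸ RingHom.ker ρ ^ 2),
      ∀ x : MvPolynomial σ k, aeval η x = 0 →
        Ideal.Quotient.mk _ (f x) = ∑ i, ψ (grd η x i) * δ i := by
  let π := Ideal.Quotient.mkₐ k (RingHom.ker ρ ^ 2)
  let ρ' : (O ⧸ RingHom.ker ρ ^ 2) →ₐ[k] κ := Ideal.Quotient.liftₐ _ ρ fun a ha =>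
    Ideal.pow_le_self two_ne_zero ha
  have hρ' : ∀ x, ρ' (π x) = ρ x := fun x => rfl
  have hsur' : Function.Surjective ρ' := fun x => by
    obtain ⟨y, rfl⟩ := hsur x
    exact ⟨π y, rfl⟩
  have hI : RingHom.ker ρ' ^ 2 = ⊥ := by
    have h1 : RingHom.ker ρ' ≤ (RingHom.ker ρ).map (Ideal.Quotient.mk _) := fun x hx => by
      obtain ⟨y, rfl⟩ := Ideal.Quotient.mk_surjective x
      exact Ideal.mem_map_of_mem _ hx
    rw [eq_bot_iff]
    refine (Ideal.pow_right_mono h1 2).trans ?_
    rw [← Ideal.map_pow]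
    exact (Ideal.map_quotient_self _).le
  obtain ⟨ψ, hψ⟩ : ∃ ψ : κ →ₐ[k] O ⧸ RingHom.ker ρ ^ 2, ∀ x, ρ' (ψ x) = x :=
    ⟨_, Algebra.FormallySmooth.liftOfSurjective_apply (AlgHom.id k κ) ρ' hsur' ⟨2, hI⟩⟩
  refine ⟨ψ, fun i => π (f (X i)) - ψ (η i), fun x hx => ?_⟩
  have h1 := Brg.Jac.taylor (RingHom.ker ρ') (fun i => ψ (η i))
    (fun i => π (f (X i)) - ψ (η i)) (fun i => by
      rw [RingHom.mem_ker, map_sub, hψ, hρ', hρ, aeval_X, sub_self]) x
  have h2 : ∀ y : MvPolynomial σ k, aeval (fun i => ψ (η i)) y = ψ (aeval η y) := fun y =>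
    (comp_aeval_apply η ψ y).symm
  have h4 : aeval ((fun i => ψ (η i)) + fun i => π (f (X i)) - ψ (η i)) = π.comp f := by
    ext i
    simp
  rw [hI, Ideal.mem_bot, h4, h2, hx, map_zero, sub_zero, sub_eq_zero] at h1
  exact h1.trans (Finset.sum_congr rfl fun i _ => by rw [h2]; rfl)

theorem le_sup_sq {O : Type} [CommRing O] [Algebra k O] [Algebra.FormallySmooth k κ]
    (ρ : O →ₐ[k] κ) (hsur : Function.Surjective ρ) (f : MvPolynomial σ k →ₐ[k] O)
    (hρ : ∀ x, ρ (f x) = aeval η x) (hs : ∀ a, aeval η (s a) = 0) {x : MvPolynomial σ k}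
    (hx : aeval η x = 0) (h : grd η x ∈ Submodule.span κ (Set.range fun a => grd η (s a))) :
    f x ∈ (Ideal.span (Set.range s)).map f ⊔ RingHom.ker ρ ^ 2 := by
  obtain ⟨ψ, δ, key⟩ := exists_section ρ hsur f hρ
  obtain ⟨c, hc⟩ := (Submodule.mem_span_range_iff_exists_fun κ).1 h
  choose c' hc' using fun a => Ideal.Quotient.mk_surjective (ψ (c a))
  have h6 : Ideal.Quotient.mk (RingHom.ker ρ ^ 2) (f x) =
      Ideal.Quotient.mk _ (∑ a, c' a * f (s a)) := by
    rw [key x hx, map_sum, ← hc]
    simp only [map_mul, key _ (hs _), Finset.sum_apply, Pi.smul_apply, smul_eq_mul, map_sum,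
      Finset.sum_mul, Finset.mul_sum, hc']
    rw [Finset.sum_comm]
    exact Finset.sum_congr rfl fun a _ => Finset.sum_congr rfl fun i _ => mul_assoc _ _ _
  rw [← sub_add_cancel (f x) (∑ a, c' a * f (s a)), add_comm]
  exact Submodule.add_mem_sup (Ideal.sum_mem _ fun a _ => Ideal.mul_mem_left _ _
    (Ideal.mem_map_of_mem _ (Ideal.subset_span ⟨a, rfl⟩))) (Ideal.Quotient.eq.1 h6)

/-- the equations generate the ideal of the point locally -/
theorem gen_of_span [CharZero k] (hη : IntermediateField.adjoin k (Set.range η) = ⊤)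
    (hs : ∀ a, aeval η (s a) = 0)
    (hsp : ∀ q : MvPolynomial σ k, aeval η q = 0 →
      grd η q ∈ Submodule.span κ (Set.range fun a => grd η (s a)))
    {q : MvPolynomial σ k} (hq : aeval η q = 0) :
    ∃ g, aeval η g ≠ 0 ∧ g * q ∈ Ideal.span (Set.range s) := by
  obtain ⟨P, hP0⟩ : ∃ P : Ideal (MvPolynomial σ k), ∀ x, x ∈ P ↔ aeval η x = 0 :=
    ⟨RingHom.ker (aeval η : MvPolynomial σ k →ₐ[k] κ), fun _ => Iff.rfl⟩
  have hP : P.IsPrime := by
    rw [show P = RingHom.ker (aeval η : MvPolynomial σ k →ₐ[k] κ) from Ideal.ext hP0]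
    exact RingHom.ker_isPrime _
  have hu : ∀ y : P.primeCompl, IsUnit ((aeval η : MvPolynomial σ k →ₐ[k] κ) y) := fun y =>
    isUnit_iff_ne_zero.2 fun h => y.2 ((hP0 _).2 h)
  obtain ⟨ρ, hρ⟩ : ∃ ρ : Localization.AtPrime P →ₐ[k] κ,
      ∀ x, ρ (algebraMap (MvPolynomial σ k) _ x) = aeval η x :=
    ⟨IsLocalization.liftAlgHom hu, fun x => IsLocalization.lift_eq hu x⟩
  have hsur : Function.Surjective ρ := fun x => by
    obtain ⟨a, b, rfl⟩ := (IntermediateField.mem_adjoin_range_iff k η x).1 (hη ▸ trivial)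
    by_cases hb : aeval η b = 0
    · exact ⟨0, by simp [hb]⟩
    · have hb' : b ∈ P.primeCompl := fun h => hb ((hP0 _).1 h)
      refine ⟨IsLocalization.mk' _ a (⟨b, hb'⟩ : P.primeCompl), ?_⟩
      rw [eq_div_iff hb, ← hρ, ← hρ, ← map_mul]
      exact congrArg ρ (IsLocalization.mk'_spec _ a (⟨b, hb'⟩ : P.primeCompl))
  have hker : RingHom.ker ρ = maximalIdeal _ := IsLocalRing.ker_eq_maximalIdeal _ hsur
  have : Algebra.EssFiniteType k κ := IntermediateField.fg_top_iff.1
    ⟨(Set.finite_range η).toFinset, by rw [Set.Finite.coe_toFinset, hη]⟩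
  have h5 : maximalIdeal (Localization.AtPrime P) ≤
      (Ideal.span (Set.range s)).map (algebraMap (MvPolynomial σ k) (Localization.AtPrime P)) ⊔
        maximalIdeal (Localization.AtPrime P) • maximalIdeal (Localization.AtPrime P) := by
    conv_lhs => rw [← Localization.AtPrime.map_eq_maximalIdeal]
    rw [Ideal.map_le_iff_le_comap, smul_eq_mul, ← pow_two, ← hker]
    exact fun x hx => le_sup_sq ρ hsur (IsScalarTower.toAlgHom k _ _) hρ hs ((hP0 x).1 hx)
      (hsp x ((hP0 x).1 hx))
  have h8 := Submodule.le_of_le_smul_of_le_jacobson_bot (IsNoetherian.noetherian _)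
    (maximalIdeal_le_jacobson _) h5
  have h9 : algebraMap (MvPolynomial σ k) _ q ∈ maximalIdeal (Localization.AtPrime P) := by
    rw [← hker, RingHom.mem_ker, hρ, hq]
  obtain ⟨g, hg, h⟩ :=
    (IsLocalization.algebraMap_mem_map_algebraMap_iff P.primeCompl _ _ q).1 (h8 h9)
  exact ⟨g, fun h0 => hg ((hP0 g).2 h0), h⟩

end Crest.Agent.X262.Tr89
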