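import Crest.Agent.X262.Tr89.Val
import Crest.Agent.X262.Tr89.Jac

/-!
# Row 262, road B (helper89): existence of the valuation with a generic direction

* `TR.of_val`, `TR.comap` : change of the parameter, restriction to a subfield;
* `tr_poly`   : the valuation of an arc `A → L[X]` with a generic tangent vector;
* `exists_TR` : the order along the generic point of a smooth subvariety of affine space.
-/

set_option autoImplicit false
set_option linter.unusedSectionVars false

noncomputable section

namespace Crest.Agent.X262.Tr89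

open MvPolynomial WithZero IsDedekindDomain.HeightOneSpectrum

section Abs

variable {A K ι : Type*} [CommRing A] [Field K] {φ : A →+* K} {P : Ideal A} {s : ι → A}
  {x : A} {e : ℕ} {t t' : K} {Γ : Type*} [LinearOrderedCommGroupWithZero Γ] {v : Valuation K Γ}

theorem TR.of_val (h : TR v φ P s t) (ht : v t' = v t) : TR v φ P s t' := by
  have h0 : t' ≠ 0 := fun h1 => h.pos.ne' (by rw [← ht, h1, map_zero])
  refine ⟨h.le, h.lt, h0, ht ▸ h.tlt, fun i => ht ▸ h.sle i, fun e G hG h1 => h.ind e G hG ?_⟩
  have h2 := congrArg v ((eval₂_div (φ := φ) (s := s) hG h0).symm.trans (eval₂_div hG h.ne))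
  rw [map_mul, map_mul, map_pow, map_pow, ht] at h2
  rwa [← mul_left_cancel₀ (pow_ne_zero e h.pos.ne') h2]

theorem TR.comap {L : Type*} [Field L] {w : Valuation L Γ} (j : K →+* L)
    (h : TR w (j.comp φ) P s (j t)) : TR (w.comap j) φ P s t := by
  refine ⟨h.le, h.lt, fun h0 => h.ne (by rw [h0, map_zero]), h.tlt, h.sle,
    fun e G hG h1 => h.ind e G hG ?_⟩
  rw [Valuation.comap_apply, eval₂_comp_left] at h1
  convert h1 using 3
  funext i
  simp

/-- an element of finite order is not killed -/
theorem TR.ne_zero {K' : Type*} [Field K'] {φ' : A →+* K'} (h : TR v φ P s t)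
    (hi : Function.Injective φ') (hg : Gen φ' P s) (hx : Ord φ' P s x e)
    (hx' : ¬ Ord φ' P s x (e + 1)) : φ x ≠ 0 := by
  obtain ⟨g, hg', z, hz, h1⟩ := hx
  obtain ⟨G, hG, rfl⟩ := (Ideal.mem_span_pow_iff_exists_isHomogeneous _ _).1 hz
  intro h0
  refine hx' (Ord.of_mul h.prime hg' h1 (hg.ord_eval h.prime hG (h.ind e G hG ?_)))
  have h2 : g * x = eval s G := hi (by rw [map_mul, h1])
  have h3 := eval₂_div (φ := φ) (s := s) hG h.ne
  rw [← h2, map_mul, h0, mul_zero, eq_comm, mul_eq_zero] at h3
  rw [h3.resolve_left (pow_ne_zero _ h.ne), map_zero]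
  exact zero_lt_one

/-- Krull's intersection theorem -/
theorem exists_not_ord [IsNoetherianRing A] (hi : Function.Injective φ) (hP : P.IsPrime)
    (hs : ∀ i, s i ∈ P) (hx : x ≠ 0) : ∃ e, Ord φ P s x e ∧ ¬ Ord φ P s x (e + 1) := by
  classical
  have : IsDomain A := hi.isDomain φ
  have h1 : ∃ e, ¬ Ord φ P s x (e + 1) := by
    by_contra h2
    push Not at h2
    have h3 : algebraMap A (Localization.AtPrime P) x ∈
        ⨅ n : ℕ, IsLocalRing.maximalIdeal (Localization.AtPrime P) ^ n := by
      refine Ideal.mem_iInf.2 fun n => Ideal.pow_le_pow_right (Nat.le_succ n) ?_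
      obtain ⟨g, hg, z, hz, h4⟩ := h2 n
      rw [← Localization.AtPrime.map_eq_maximalIdeal, ← Ideal.map_pow,
        IsLocalization.algebraMap_mem_map_algebraMap_iff P.primeCompl]
      refine ⟨g, hg, ?_⟩
      rw [show g * x = z from hi (by rw [map_mul, h4])]
      exact Ideal.pow_right_mono (Ideal.span_le.2 (by rintro _ ⟨i, rfl⟩; exact hs i)) _ hz
    rw [Ideal.iInf_pow_eq_bot_of_isLocalRing _ (IsLocalRing.maximalIdeal.isMaximal _).ne_top,
      Ideal.mem_bot] at h3
    exact hx (IsLocalization.injective _ P.primeCompl_le_nonZeroDivisors (h3.trans (map_zero _).symm))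
  refine ⟨Nat.find h1, ?_, Nat.find_spec h1⟩
  rcases h2 : Nat.find h1 with _ | m
  · exact Ord.zero hP x
  · exact not_not.1 (Nat.find_min h1 (by omega))

theorem TR.injective [IsNoetherianRing A] {K' : Type*} [Field K'] {φ' : A →+* K'}
    (h : TR v φ P s t) (hi : Function.Injective φ') (hg : Gen φ' P s) : Function.Injective φ := by
  rw [injective_iff_map_eq_zero]
  intro x hx
  by_contra h0
  obtain ⟨e, h1, h2⟩ := exists_not_ord hi h.prime
    (fun i => (h.lt _).1 ((h.sle i).trans_lt h.tlt)) h0
  exact h.ne_zero hi hg h1 h2 hx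

/-- the valuation of an arc with a generic tangent vector -/
theorem tr_poly {L : Type*} [Field L] (ψ : A →+* Polynomial L) (c : ι → Polynomial L)
    (hP : ∀ x, x ∈ P ↔ (ψ x).coeff 0 = 0) (hc : ∀ a, ψ (s a) = Polynomial.X * c a)
    (hi : ∀ (e : ℕ) (G : MvPolynomial ι A), G.IsHomogeneous e →
      eval₂ (Polynomial.constantCoeff.comp ψ) (fun a => (c a).coeff 0) G = 0 →
        ∀ m, coeff m G ∈ P) :
    TR ((Polynomial.idealX L).valuation (RatFunc L)) ((algebraMap _ (RatFunc L)).comp ψ) P s
      RatFunc.X := by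
  have h1 : ∀ p : Polynomial L, (Polynomial.idealX L).valuation (RatFunc L)
      (algebraMap _ _ p) < 1 ↔ p.coeff 0 = 0 := fun p => by
    rw [valuation_lt_one_iff_mem, Polynomial.idealX_span, Ideal.mem_span_singleton,
      Polynomial.X_dvd_iff]
  have h2 : ∀ a, ((algebraMap _ (RatFunc L)).comp ψ) (s a) / RatFunc.X =
      algebraMap _ (RatFunc L) (c a) := fun a => by
    rw [RingHom.comp_apply, hc, map_mul, RatFunc.algebraMap_X,
      mul_div_cancel_left₀ _ RatFunc.X_ne_zero]
  refine ⟨fun x => valuation_le_one _ _, fun x => (h1 _).trans (hP x).symm, RatFunc.X_ne_zero,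
    ?_, fun a => ?_, fun e G hG h3 => hi e G hG ?_⟩
  · rw [← RatFunc.algebraMap_X, h1, Polynomial.coeff_X_zero]
  · rw [RingHom.comp_apply, hc, map_mul, map_mul, RatFunc.algebraMap_X]
    exact mul_le_of_le_one_right' (valuation_le_one _ _)
  · simp only [h2] at h3
    have h4 := eval₂_comp_left (algebraMap _ (RatFunc L)) ψ c G
    rw [show (fun a => algebraMap _ (RatFunc L) (c a)) = algebraMap _ (RatFunc L) ∘ c from rfl,
      ← h4, h1] at h3
    have h5 := eval₂_comp_left (Polynomial.constantCoeff (R := L)) ψ c G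
    rw [Polynomial.constantCoeff_apply, h3] at h5
    exact h5.symm

end Abs

variable {k K κ σ ι : Type} [Field k] [Field K] [Field κ] [Algebra k K] [Algebra k κ] [Fintype σ]
  [Fintype ι]

/-- evaluation at a point -/
abbrev evH (k : Type) [Field k] [Algebra k K] (y : σ → K) : MvPolynomial σ k →+* K :=
  (aeval y : MvPolynomial σ k →ₐ[k] K)

/-- the ideal of a point -/
abbrev idl (k : Type) [Field k] [Algebra k K] (y : σ → K) : Ideal (MvPolynomial σ k) :=
  RingHom.ker (evH k y)

variable {y : σ → K} {η : σ → κ} {s : ι → MvPolynomial σ k}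

theorem frc_evH (hK : IntermediateField.adjoin k (Set.range y) = ⊤) : Frc (evH k y) := fun z => by
  obtain ⟨a, b, rfl⟩ := (IntermediateField.mem_adjoin_range_iff k y z).1 (hK ▸ trivial)
  by_cases hb : aeval y b = 0
  · exact ⟨0, 1, by simp, by simp [hb]⟩
  · exact ⟨a, b, hb, rfl⟩

theorem gen_evH [CharZero k] (hη : IntermediateField.adjoin k (Set.range η) = ⊤)
    (hs : ∀ a, aeval η (s a) = 0) (hli : LinearIndependent κ fun a => grd η (s a))
    (hd : Fintype.card σ ≤ Module.finrank κ Ω[κ⁄k] + Fintype.card ι)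
    (φ : MvPolynomial σ k →+* K) : Gen φ (idl k η) s := fun q hq => by
  obtain ⟨g, hg, h⟩ := gen_of_span hη hs (fun _ => span_of_dim hη hs hli hd) hq
  exact ⟨g, hg, g * q, by rwa [pow_one], (map_mul _ _ _).symm⟩

theorem exists_dual {f : ι → σ → κ} (hli : LinearIndependent κ f) [DecidableEq ι] :
    ∃ w : ι → σ → κ, ∀ a b, ∑ i, f a i * w b i = if a = b then 1 else 0 := by
  classical
  have h : ∀ b, ∃ w : σ → κ, ∀ a, ∑ i, f a i * w i = if a = b then 1 else 0 := fun b => by
    obtain ⟨g, hg⟩ := (hli.repr.exists_extend :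
      ∃ g : (σ → κ) →ₗ[κ] (ι →₀ κ), g.comp (Submodule.span κ (Set.range f)).subtype = hli.repr)
    refine ⟨fun i => g (Pi.single i 1) b, fun a => ?_⟩
    have h1 : g (f a) = Finsupp.single a 1 := by
      have h2 := LinearMap.congr_fun hg ⟨f a, Submodule.subset_span ⟨a, rfl⟩⟩
      exact h2.trans (hli.repr_eq_single a _ rfl)
    have h3 : f a = ∑ i, f a i • (Pi.single i 1 : σ → κ) := by
      funext j
      simp [Finset.sum_apply, Pi.single_apply]
    rw [← Finsupp.single_apply, ← h1]
    conv_rhs => rw [h3, map_sum, Finsupp.finsetSum_apply]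
    simp
  choose w hw using h
  exact ⟨w, fun a b => hw b a⟩

/-- the arc `η + X d` to first order -/
theorem exists_arc {L : Type} [Field L] [Algebra κ L] [Algebra k L] [IsScalarTower k κ L]
    (η : σ → κ) (d : σ → L) : ∃ (ψ : MvPolynomial σ k →+* Polynomial L)
      (r : MvPolynomial σ k → Polynomial L), ∀ q, ψ q = Polynomial.C (algebraMap κ L (aeval η q)) +
        Polynomial.X * (Polynomial.C (∑ i, algebraMap κ L (grd η q i) * d i) +
          Polynomial.X * r q) := by
  let b : σ → Polynomial L := fun i => Polynomial.C (algebraMap κ L (η i))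
  let δ : σ → Polynomial L := fun i => Polynomial.X * Polynomial.C (d i)
  have hb : ∀ q : MvPolynomial σ k, aeval b q = Polynomial.C (algebraMap κ L (aeval η q)) :=
    fun q => (comp_aeval_apply η
      (((Polynomial.CAlgHom : L →ₐ[L] Polynomial L).restrictScalars k).comp
      (IsScalarTower.toAlgHom k κ L)) q).symm
  have h1 : ∀ q : MvPolynomial σ k, ∃ r : Polynomial L, aeval (b + δ) q =
      Polynomial.C (algebraMap κ L (aeval η q)) + Polynomial.X *
        (Polynomial.C (∑ i, algebraMap κ L (grd η q i) * d i) + Polynomial.X * r) := fun q => by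
    have h2 := Brg.Jac.taylor (Ideal.span {Polynomial.X}) b δ
      (fun i => Ideal.mul_mem_right _ _ (Ideal.subset_span rfl)) q
    rw [Ideal.span_singleton_pow, Ideal.mem_span_singleton] at h2
    obtain ⟨r, hr⟩ := h2
    refine ⟨r, ?_⟩
    simp only [hb] at hr
    rw [map_sum, mul_add, Finset.mul_sum]
    have h3 : ∀ i, Polynomial.X * Polynomial.C (algebraMap κ L (grd η q i) * d i) =
        Polynomial.C (algebraMap κ L (aeval η (pderiv i q))) * δ i := fun i => by
      simp only [δ, grd, map_mul]; ring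
    simp only [h3]
    linear_combination hr
  choose r hr using h1
  exact ⟨(aeval (b + δ) : MvPolynomial σ k →ₐ[k] Polynomial L), r, hr⟩

/-- an arc with a generic normal vector -/
theorem exists_arc' (hs : ∀ a, aeval η (s a) = 0)
    (hli : LinearIndependent κ fun a => grd η (s a)) :
    ∃ (L : Type) (_ : Field L) (ψ : MvPolynomial σ k →+* Polynomial L) (c : ι → Polynomial L),
      (∀ x, x ∈ idl k η ↔ (ψ x).coeff 0 = 0) ∧ (∀ a, ψ (s a) = Polynomial.X * c a) ∧
      (∀ a, (c a).coeff 0 ≠ 0) ∧ ∀ G : MvPolynomial ι (MvPolynomial σ k),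
        eval₂ (Polynomial.constantCoeff.comp ψ) (fun a => (c a).coeff 0) G = 0 →
          ∀ m, coeff m G ∈ idl k η := by
  classical
  obtain ⟨w, hw⟩ := exists_dual hli
  obtain ⟨L, _, _, _, _, u, hu⟩ : ∃ (L : Type) (_ : Field L) (_ : Algebra κ L) (_ : Algebra k L)
      (_ : IsScalarTower k κ L) (u : ι → L), AlgebraicIndependent κ u :=
    ⟨FractionRing (MvPolynomial ι κ), inferInstance, inferInstance, inferInstance, inferInstance,
      fun a => algebraMap (MvPolynomial ι κ) _ (X a),
      (MvPolynomial.algebraicIndependent_X ι κ).map'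
        (f := IsScalarTower.toAlgHom κ (MvPolynomial ι κ) _) (IsFractionRing.injective _ _)⟩
  obtain ⟨ψ, r, hr⟩ := exists_arc (k := k) η fun i => ∑ a, u a * algebraMap κ L (w a i)
  have h0 : ∀ q, (ψ q).coeff 0 = algebraMap κ L (aeval η q) := fun q => by
    rw [hr]; simp
  have h4 : ∀ a, ∑ i, algebraMap κ L (grd η (s a) i) * ∑ a, u a * algebraMap κ L (w a i) = u a :=
    fun a => by
    simp only [Finset.mul_sum]
    rw [Finset.sum_comm]
    have h5 : ∀ a', ∑ i, algebraMap κ L (grd η (s a) i) * (u a' * algebraMap κ L (w a' i)) =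
        if a = a' then u a' else 0 := fun a' => by
      have h6 := congrArg (fun z => u a' * algebraMap κ L z) (hw a a')
      simp only [map_sum, map_mul, Finset.mul_sum] at h6
      rw [show (if a = a' then u a' else 0) = u a' * algebraMap κ L (if a = a' then 1 else 0) by
        split_ifs <;> simp, ← h6]
      exact Finset.sum_congr rfl fun i _ => by ring
    simp [h5]
  refine ⟨L, inferInstance, ψ, fun a => Polynomial.C (u a) + Polynomial.X * r (s a), fun x => ?_,
    fun a => by rw [hr, hs, map_zero, map_zero, zero_add, h4],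
    fun a => by simpa using hu.ne_zero a, fun G h5 m => ?_⟩
  · rw [h0, map_eq_zero_iff _ (algebraMap κ L).injective]
    rfl
  · have h6 : Polynomial.constantCoeff.comp ψ = (algebraMap κ L).comp (evH k η) := RingHom.ext h0
    have h7 : aeval u (map (evH k η) G) = 0 := by
      rw [aeval_def, eval₂_map, ← h6, ← h5]
      simp
    have h8 := congrArg (coeff m) (hu (h7.trans (map_zero _).symm))
    rwa [coeff_map, coeff_zero] at h8

/-- existence of the order along a smooth generic point -/
theorem exists_TR (hy : AlgebraicIndependent k y)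
    (hK : IntermediateField.adjoin k (Set.range y) = ⊤) (hs : ∀ a, aeval η (s a) = 0)
    (hli : LinearIndependent κ fun a => grd η (s a)) (hg : Gen (evH k y) (idl k η) s) (a₀ : ι) :
    ∃ v : Valuation K ℤᵐ⁰, TR v (evH k y) (idl k η) s (aeval y (s a₀)) := by
  obtain ⟨L, _, ψ, c, h1, h2, h3, h4⟩ := exists_arc' hs hli
  have hT := tr_poly ψ c h1 h2 fun _ G _ => h4 G
  have hi := hT.injective (φ' := evH k y) hy hg
  obtain ⟨j, hj⟩ : ∃ j : K →+* RatFunc L,
      j.comp (evH k y) = (algebraMap _ (RatFunc L)).comp ψ := by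
    let _ : Algebra (MvPolynomial σ k) K := (evH k y).toAlgebra
    have : FaithfulSMul (MvPolynomial σ k) K := (faithfulSMul_iff_algebraMap_injective _ _).2 hy
    have : IsFractionRing (MvPolynomial σ k) K := IsFractionRing.of_field _ _ fun z => by
      obtain ⟨a, c, -, h⟩ := frc_evH hK z
      exact ⟨a, c, h⟩
    exact ⟨IsFractionRing.lift hi, RingHom.ext fun x => IsFractionRing.lift_algebraMap hi x⟩
  have h9 : j (aeval y (s a₀)) = algebraMap _ (RatFunc L) (ψ (s a₀)) :=
    RingHom.congr_fun hj (s a₀)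
  refine ⟨_, TR.comap (w := (Polynomial.idealX L).valuation (RatFunc L)) j ?_⟩
  rw [hj]
  refine hT.of_val ?_
  rw [h9, h2, map_mul, map_mul, RatFunc.algebraMap_X, mul_eq_left₀ hT.pos.ne']
  refine (valuation_le_one _ _).antisymm (not_lt.1 fun h => h3 a₀ ?_)
  rwa [valuation_lt_one_iff_mem, Polynomial.idealX_span, Ideal.mem_span_singleton,
    Polynomial.X_dvd_iff] at h

end Crest.Agent.X262.Tr89
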