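import Crest.Agent.X262.Hb.Defs
import Crest.Agent.X262.Val40.Pull
import Crest.Agent.X262.Loc95.Prj
import Crest.Agent.X262.Fam17.Pl
import Crest.Agent.X277.Pst.Rk

/-!
# Row 262, road B (helper89): integration along the fibres

* `dg_car`, `fin_dg`, `bnum_finsum` : the cycle formula as a sum over all divisorial valuations;
* `pc B l`  : the product of the first Chern classes of a list of b-divisors;
* `zer`     : `∫_E c1 b_1 ⋯ c1 b_j · π^* φ = 0` if `j + dim κ < dim E`;
* `fib`     : `∫_E c1 b_1 ⋯ c1 b_j · π^* φ = (b_1 ⋯ b_j)_{E/κ} ∫_κ φ` if `j + dim κ ≤ dim E`.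
-/

set_option autoImplicit false
set_option linter.unusedSectionVars false

noncomputable section

namespace Crest.Agent.X262.Tr89

open Crest.Agent.X277 Crest.Agent.X277.BD Crest.Agent.X277.Pst Crest.Agent.X277.BD.Cyc
open Crest.Agent.X277.Neg (nv nv_triv IsNv isNv_nv)
open Crest.Agent.X262.Geo Crest.Agent.X262.Hb Crest.Agent.X262.Val40
open Crest.Agent.X262.Mod (IsMod Car car_self)
open Crest.Agent.X262.Loc (dim_tower bnum_nil)
open WithZero

section Cyc

variable {k F : Type} [Field k] [Field F] [Algebra k F] [CharZero k] [Algebra.EssFiniteType k F]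
  {V : RZ k F} {H : BD k F}

theorem bnum_congr' {l l' : List (BD k F)} (h : List.Forall₂ Lin l l') : bnum l = bnum l' := by
  simpa using bnum_congr h []

theorem dg_nef (hH : Free H) (hV : Dvs V) (h : ¬ Prm H V) : ∀ (l : List (BD k F)) (m : ℕ),
    (∀ b ∈ l, Nef b ∧ Car H b) → dg V (l ++ List.replicate m H) = 0
  | [], m, _ => by
    by_cases hm : dim k F = m + 1
    · exact dg_eq_zero hH hV h hm
    · exact dg_of_ne hV (by simpa using Ne.symm hm)
  | a :: l, m, hl => by
    obtain ⟨h1, c, -, h2⟩ := hl a (by simp)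
    have h3 : ∀ b ∈ l ++ List.replicate m H, Nef b := fun b hb =>
      (List.mem_append.1 hb).elim (fun h4 => (hl b (by simp [h4])).1)
        fun h4 => List.eq_of_mem_replicate h4 ▸ hH.nef
    have h4 : dg V (H :: (l ++ List.replicate m H)) = 0 := by
      rw [← dg_nef hH hV h l (m + 1) fun b hb => hl b (by simp [hb]), List.replicate_succ]
      exact dg_perm List.perm_middle.symm
    have h5 : 0 ≤ dg V (a :: (l ++ List.replicate m H)) :=
      dg_nonneg (List.forall_mem_cons.2 ⟨h1, h3⟩)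
    have h6 : 0 ≤ dg V ((c • H - a) :: (l ++ List.replicate m H)) :=
      dg_nonneg (List.forall_mem_cons.2 ⟨h2.nef, h3⟩)
    rw [dg_sub, dg_nsmul, h4] at h6
    rw [List.cons_append]
    omega

theorem dg_car' (hH : Free H) (hV : Dvs V) (h : ¬ Prm H V) : ∀ (l m : List (BD k F)),
    (∀ b ∈ l, Car H b) → (∀ b ∈ m, Nef b ∧ Car H b) → dg V (l ++ m) = 0
  | [], m, _, hm => by simpa using dg_nef hH hV h m 0 hm
  | a :: l, m, hl, hm => by
    have h0 := hl a (by simp)
    obtain ⟨c, h1, -⟩ := id h0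
    have h2 : ∀ b, Nef b → Car H b → dg V (b :: (l ++ m)) = 0 := fun b hb hb' => by
      rw [← dg_car' hH hV h l (b :: m) (fun b hb => hl b (by simp [hb]))
        (List.forall_mem_cons.2 ⟨⟨hb, hb'⟩, hm⟩)]
      exact dg_perm List.perm_middle.symm
    have h3 := h2 _ h1.nef (((car_self hH).nsmul c).add h0)
    rw [dg_add, dg_nsmul, h2 H hH.nef (car_self hH)] at h3
    simpa using h3

/-- classes of a model have degree zero on exceptional divisors -/
theorem dg_car (hH : Free H) (hV : Dvs V) (h : ¬ Prm H V) {l : List (BD k F)}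
    (hl : ∀ b ∈ l, Car H b) : dg V l = 0 := by
  simpa using dg_car' hH hV h l [] hl (by simp)

/-- the cycle formula: a finite set carries all the contributions -/
theorem exists_cyc' (a : BD k F) (l : List (BD k F)) : ∃ T : Finset (RZ k F),
    (∀ V ∈ T, Dvs V) ∧ (∀ V, Dvs V → od V a ≠ 0 → dg V l ≠ 0 → V ∈ T) ∧
      bnum (a :: l) = ∑ V ∈ T, od V a * dg V l := by
  obtain ⟨H, h1, -, -, -, h4⟩ := exists_model Free.zero ∅ (by simp) (a :: l)
  have h5 : ∀ b ∈ l, Car H b := fun b hb => h4 b (by simp [hb])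
  have h6 : ∀ V, V ∈ (fin_od h1 a).toFinset ↔ Prm H V ∧ od V a ≠ 0 := fun V =>
    Set.Finite.mem_toFinset _
  exact ⟨(fin_od h1 a).toFinset, fun V hV => ((h6 V).1 hV).1.dvs,
    fun V hV h h' => (h6 V).2 ⟨by_contra fun h0 => h' (dg_car h1.free hV h0 h5), h⟩,
    bnum_cyc h1 (h4 a (by simp)) h5 (fun V hV => ((h6 V).1 hV).1) fun V hV h => (h6 V).2 ⟨hV, h⟩⟩

/-- only one valuation contributes -/
theorem bnum_single {a : BD k F} {l : List (BD k F)} (hV : Dvs V)
    (h : ∀ W, Dvs W → od W a ≠ 0 → dg W l ≠ 0 → W = V) : bnum (a :: l) = od V a * dg V l := by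
  obtain ⟨T, h2, h3, -, h4⟩ := exists_cyc a l {V} (by simpa using hV)
  rw [h4, Finset.sum_eq_single_of_mem V (h2 (by simp))]
  intro W hW h5
  by_contra h6
  exact h5 (h W (h3 W hW) (left_ne_zero_of_mul h6) (right_ne_zero_of_mul h6))

end Cyc

section Dn

variable {k K F : Type} [Field k] [Field K] [Field F] [Algebra k K] [Algebra K F] [Algebra k F]
  [IsScalarTower k K F] [CharZero k] [Algebra.EssFiniteType k F] {W : RZ K F}

theorem od_up (hW : Dvs (W.dn k)) (a : BD k F) : od W (up K a) = od (W.dn k) a := by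
  have h1 : IsNv W (nv (W.dn k)) := ⟨(isNv_nv hW).unif, (isNv_nv hW).le_iff⟩
  have h2 : nv W = nv (W.dn k) :=
    AN.G2.val_eq_of_equiv (fun _ => h1.nv.le_one.trans h1.le_one.symm) h1.nv.unif h1.unif
  have h3 : W.v (a.gen (W.dn k)) = (up K a).val W := by
    rw [val_up]; exact v_gen a (W.dn k)
  have h4 : ∀ {k' : Type} [Field k'] [Algebra k' F] {V : RZ k' F} {b : BD k' F} {s : F},
      IsNv V (nv V) → V.v s = b.val V → od V b = log (nv V s) := fun {k'} _ _ V b s hV h => by
    change log (vl _ _ b) = _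
    rw [vl_eq (g := s)]
    rw [hV.rz_eq]
    exact h
  rw [h4 h1.nv h3, h4 (isNv_nv hW) (v_gen a _), h2]

end Dn

variable {B : Th} {K E L : Type} [Field K] [Algebra ℂ K] [Field E] [Algebra ℂ E] [Field L]
  [Algebra ℂ L]

theorem r_comp' (p : LP K E) (q : LP E L) (x : K) : (p.comp q).r x = q.r (p.r x) := by
  by_cases h : x ∈ (p.comp q).V.1
  · rw [Pl.r_eq _ h]; rfl
  · have h0 : ∀ {K E : Type} [Field K] [Algebra ℂ K] [Field E] [Algebra ℂ E] (p : Pl ℂ K ℂ E)
        (x : K), x ∉ p.V.1 → p.r x = 0 := fun p x hx => dif_neg hx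
    rw [h0 _ _ h]
    by_cases h1 : x ∈ p.V.1
    · exact (h0 _ _ fun h2 => h ⟨h1, h2⟩).symm
    · rw [h0 _ _ h1, Pl.r_zero]

theorem r_hom' (α : K →ₐ[ℂ] E) (x : K) : (LP.hom α).r x = α x := Pl.r_ofHom _ _ x

theorem pb_congr (hB : B.Ax) {p q : LP K E} (h : ∀ x, p.r x = q.r x) (x : B.H K) :
    B.pb p x = B.pb q x := by
  obtain ⟨s, Φ, h1, -⟩ := hB.loc x
  rw [h1, h1]
  exact congrArg _ (funext fun f => h f)

theorem pb_pb (hB : B.Ax) {p : LP K E} {q : LP E L} {t : LP K L} (h : ∀ x, q.r (p.r x) = t.r x)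
    (x : B.H K) : B.pb q (B.pb p x) = B.pb t x := by
  rw [← hB.pb_comp]
  exact pb_congr hB (fun x => (r_comp' p q x).trans (h x)) x

theorem pb_at_hom (hB : B.Ax) (α : K →ₐ[ℂ] E) (V : RZ ℂ E) (x : B.H K) :
    B.pb (LP.at V) (B.pb (LP.hom α) x) = B.pb (LP.hom (rf α V)) (B.pb (LP.at (dn α V)) x) := by
  rw [← hB.pb_comp, ← hB.pb_comp]
  refine pb_congr hB (fun x => ?_) x
  rw [r_comp', r_comp', r_hom', r_hom']
  exact (rf_r α V x).symm

/-- the residue map on a subfield contained in the valuation ring -/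
def rh {k : Type} [Field k] {K E : Type} [Field K] [Field E] [Algebra k K] [Algebra k E]
    (α : K →ₐ[k] E) (V : RZ k E) (h : ∀ x, α x ∈ V.1) : K →ₐ[k] Rf V where
  toFun x := (plV V).r (α x)
  map_one' := by rw [map_one, Pl.r_one]
  map_mul' x y := by rw [map_mul, Pl.r_mul (p := plV V) (h x) (h y)]
  map_zero' := by rw [map_zero, Pl.r_zero]
  map_add' x y := by rw [map_add, Pl.r_add (p := plV V) (h x) (h y)]
  commutes' c := by rw [α.commutes]; exact lnr_plV V c

theorem pb_at_rh (hB : B.Ax) (α : K →ₐ[ℂ] E) (V : RZ ℂ E) (h : ∀ x, α x ∈ V.1) (x : B.H K) :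
    B.pb (LP.at V) (B.pb (LP.hom α) x) = B.pb (LP.hom (rh α V h)) x :=
  pb_pb hB (fun x => by rw [r_hom', r_hom']; rfl) x

theorem c1_lin (hB : B.Ax) {a b : BD ℂ K} (h : Lin a b) : B.c1 a = B.c1 b := by
  obtain ⟨f, -, rfl⟩ := h
  rw [map_add, hB.c1_pr, add_zero]

theorem pb_hom_c1 (hB : B.Ax) (α : K →ₐ[ℂ] E) (a : BD ℂ K) :
    B.pb (LP.hom α) (B.c1 a) = B.c1 (pb α a) :=
  (hB.pb_c1 _ a).trans (c1_lin hB (Fam.lin_mp _ _ a))

variable (B) in
/-- product of first Chern classes -/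
def pc (l : List (BD ℂ K)) : B.H K := (l.map B.c1).prod

theorem pc_nil : pc B ([] : List (BD ℂ K)) = 1 := rfl

theorem pc_cons (a : BD ℂ K) (l : List (BD ℂ K)) : pc B (a :: l) = B.c1 a * pc B l := by
  simp [pc]

theorem pc_append (l m : List (BD ℂ K)) : pc B (l ++ m) = pc B l * pc B m := by
  simp [pc]

theorem pc_replicate (n : ℕ) (a : BD ℂ K) : pc B (List.replicate n a) = B.c1 a ^ n := by
  simp [pc]

theorem pb_pc (hB : B.Ax) (p : LP K E) : ∀ l : List (BD ℂ K), B.pb p (pc B l) = pc B (l.map p.rs)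
  | [] => map_one _
  | a :: l => by rw [List.map_cons, pc_cons, pc_cons, map_mul, pb_pc hB p l, hB.pb_c1]

theorem finsum_dvs_zero {f : RZ ℂ K → ℂ} (h : ∀ V, Dvs V → f V = 0) :
    ∑ᶠ (V : RZ ℂ K) (_ : Dvs V), f V = 0 := by
  classical
  refine finsum_eq_zero_of_forall_eq_zero fun V => ?_
  rw [finsum_eq_if]
  split_ifs with hV
  exacts [h V hV, rfl]

/-- too few divisor classes -/
theorem zer (hB : B.Ax) (n : ℕ) : ∀ {K E : Type} [Field K] [Algebra ℂ K] [Field E] [Algebra ℂ E]
    [Algebra.EssFiniteType ℂ K] [Algebra.EssFiniteType ℂ E] (α : K →ₐ[ℂ] E) (φ : B.H K)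
    (l : List (BD ℂ E)), l.length = n → n + dim ℂ K < dim ℂ E →
    B.itg E (pc B l * B.pb (LP.hom α) φ) = 0 := by
  induction n with
  | zero =>
    intro K E _ _ _ _ _ _ α φ l hl h
    obtain rfl := List.length_eq_zero_iff.1 hl
    have h1 : deg α = 0 := Nat.eq_zero_of_not_pos fun h0 => by
      have := (deg_pos_iff α).1 h0
      omega
    rw [pc_nil, one_mul, hB.deg, h1, Nat.cast_zero, zero_mul]
  | succ n ih =>
    intro K E _ _ _ _ _ _ α φ l hl h
    obtain ⟨a, l, rfl⟩ := List.exists_cons_of_length_eq_add_one hl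
    rw [pc_cons, mul_assoc, hB.cyc]
    refine finsum_dvs_zero fun V hV => ?_
    have := essFT_Rf hV
    have h1 := dim_Rf' hV
    rw [map_mul, pb_pc hB]
    by_cases h0 : (dn α V).1 = ⊤
    · rw [pb_at_rh hB α V fun x => mem_dn.1 (h0 ▸ ValuationSubring.mem_top x),
        ih _ _ _ (by simpa using hl) (by omega), mul_zero]
    · have h2 := dvs_dn hV h0
      have := essFT_Rf h2
      have h3 := dim_Rf' h2
      rw [pb_at_hom hB, ih _ _ _ (by simpa using hl) (by omega), mul_zero]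

/-- integration along the fibres -/
theorem fib' (hB : B.Ax) {K : Type} [Field K] [Algebra ℂ K] [Algebra.EssFiniteType ℂ K]
    [CharZero K] (φ : B.H K) (n : ℕ) : ∀ {E : Type} [Field E] [Algebra ℂ E] [Algebra K E]
    [IsScalarTower ℂ K E] [Algebra.EssFiniteType ℂ E] [Algebra.EssFiniteType K E]
    (l : List (BD ℂ E)), l.length = n → n + dim ℂ K = dim ℂ E →
    B.itg E (pc B l * B.pb (LP.hom (IsScalarTower.toAlgHom ℂ K E)) φ) =
      bnum (l.map (up K)) * B.itg K φ := by
  classical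
  induction n with
  | zero =>
    intro E _ _ _ _ _ _ l hl _
    obtain rfl := List.length_eq_zero_iff.1 hl
    rw [pc_nil, one_mul, hB.deg, deg_tower, List.map_nil, bnum_nil, Int.cast_natCast]
  | succ n ih =>
    intro E _ _ _ _ _ _ l hl h
    obtain ⟨a, l, rfl⟩ := List.exists_cons_of_length_eq_add_one hl
    have hl' : l.length = n := by simpa using hl
    obtain ⟨T, h1, h2, h3⟩ := exists_cyc' (up K a) (l.map (up K))
    have key : ∀ W : RZ K E, Dvs W → B.itg (Rf (W.dn ℂ)) (B.pb (LP.at (W.dn ℂ))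
        (pc B l * B.pb (LP.hom (IsScalarTower.toAlgHom ℂ K E)) φ)) =
        dg W (l.map (up K)) * B.itg K φ := fun W hW => by
      have hV : Dvs (W.dn ℂ) := Pst.dvs_dn.2 hW
      have := essFT_Rf hV
      have h4 := dim_Rf' hV
      let β := rh (IsScalarTower.toAlgHom ℂ K E) (W.dn ℂ) W.2
      let _ : Algebra K (Rf (W.dn ℂ)) := β.toRingHom.toAlgebra
      have : IsScalarTower ℂ K (Rf (W.dn ℂ)) :=
        IsScalarTower.of_algebraMap_eq fun c => (β.commutes c).symm
      have : Algebra.EssFiniteType K (Rf (W.dn ℂ)) := Algebra.EssFiniteType.of_comp ℂ K _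
      have h5 : ∀ c : K, algebraMap K E c ∈ (plV (W.dn ℂ)).V.1 ∧
          ∃ c' : K, (plV (W.dn ℂ)).r (algebraMap K E c) = algebraMap K _ c' :=
        fun c => ⟨W.2 c, c, rfl⟩
      rw [map_mul, pb_pc hB, pb_at_rh hB (IsScalarTower.toAlgHom ℂ K E) (W.dn ℂ) W.2]
      refine (ih (E := Rf (W.dn ℂ)) _ (by simpa using hl') (by omega)).trans ?_
      rw [show dg W (l.map (up K)) = _ from dg_eq_pl (p := Fam.gd (plV (W.dn ℂ)) K K h5) hW
        (fun c => rfl) (surj_plV (W.dn ℂ)) (l.map (up K))]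
      congr 2
      refine bnum_congr' ?_
      rw [List.map_map, List.map_map, List.forall₂_map_left_iff, List.forall₂_map_right_iff,
        List.forall₂_same]
      exact fun b _ => (Fam.gd_rs h5 b).symm
    have hinj : Function.Injective (fun W : RZ K E => W.dn ℂ) := fun W W' h =>
      Subtype.ext (congrArg (fun V : RZ ℂ E => V.1) h)
    rw [pc_cons, mul_assoc, hB.cyc, List.map_cons, h3, Int.cast_sum, Finset.sum_mul,
      finsum_eq_sum_of_support_subset (s := T.image fun W => W.dn ℂ),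
      Finset.sum_image fun _ _ _ _ h => hinj h]
    · refine Finset.sum_congr rfl fun W hW => ?_
      have hV : Dvs (W.dn ℂ) := Pst.dvs_dn.2 (h1 W hW)
      rw [finsum_eq_if, if_pos hV, key W (h1 W hW), od_up hV, Int.cast_mul, mul_assoc]
    · intro V hV
      rw [Function.mem_support, finsum_eq_if] at hV
      have hD : Dvs V := by_contra fun h0 => hV (if_neg h0)
      rw [if_pos hD] at hV
      by_cases h0 : (dn (IsScalarTower.toAlgHom ℂ K E) V).1 = ⊤
      · let W : RZ K E := ⟨V.1, fun x => mem_dn.1 (h0 ▸ ValuationSubring.mem_top x)⟩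
        have hW : Dvs W := (Pst.dvs_dn (E := ℂ)).1 hD
        refine Finset.mem_coe.2 (Finset.mem_image.2 ⟨W, h2 W hW ?_ ?_, rfl⟩)
        · rw [od_up (W := W) hD]
          exact Int.cast_ne_zero.1 (left_ne_zero_of_mul hV)
        · have h6 := right_ne_zero_of_mul hV
          rw [show V = W.dn ℂ from rfl, key W hW] at h6
          exact Int.cast_ne_zero.1 (left_ne_zero_of_mul h6)
      · have h4 := dvs_dn hD h0
        have := essFT_Rf hD
        have := essFT_Rf h4
        have h5 := dim_Rf' hD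
        have h6 := dim_Rf' h4
        rw [map_mul, pb_pc hB, pb_at_hom hB, zer hB n _ _ _ (by simpa using hl') (by omega),
          mul_zero] at hV
        exact absurd rfl hV

/-- integration along the fibres -/
theorem fib (hB : B.Ax) [Algebra.EssFiniteType ℂ K] [CharZero K] [Algebra K E]
    [IsScalarTower ℂ K E] [Algebra.EssFiniteType ℂ E] [Algebra.EssFiniteType K E] (φ : B.H K)
    (l : List (BD ℂ E)) (h : l.length + dim ℂ K ≤ dim ℂ E) :
    B.itg E (pc B l * B.pb (LP.hom (IsScalarTower.toAlgHom ℂ K E)) φ) =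
      bnum (l.map (up K)) * B.itg K φ := by
  rcases h.eq_or_lt with h | h
  · exact fib' hB φ _ l rfl h
  · rw [zer hB _ _ _ l rfl h, bnum_of_ne, Int.cast_zero, zero_mul]
    rw [dim_tower ℂ K E] at h
    rw [List.length_map]
    omega

end Crest.Agent.X262.Tr89
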