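import Crest.Agent.X262.Tr89.Trm
import Crest.Agent.X262.Syz.Eqn2

/-!
# Row 262, road B (helper89): affine charts of a product of projective spaces

* `Af i₀`, `aff`, `hmg`, `Nr`, `nr`, `deh` : the chart `y j (i₀ j) = 1`;
* `finrank_grd`, `dim_add_le`, `exists_rows` : the Jacobian in the chart;
* `gen_adjoin`, `gen_spec` : the generic point of the target in the chart;
* `exists_chart`, `exists_sub`, `chart_change`.
-/

set_option autoImplicit false
set_option linter.unusedSectionVars false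

noncomputable section

namespace Crest.Agent.X262.Tr89

open Crest.Agent.X277 Crest.Agent.X277.BD Crest.Agent.X277.Pst Crest.Agent.X277.BD.Cyc
open Crest.Agent.X262.Geo Crest.Agent.X262.Hb Crest.Agent.X262.Vb
open Crest.Agent.X262.Node22 (scl chr vec vsc chr_ne pv_scl jac_apply jac_euler nz_scl)
open MvPolynomial Module
open Set (range)
open IntermediateField (adjoin)
open IsScalarTower (toAlgHom)

variable {J : Type} [Fintype J] [DecidableEq J] {io : J → Type} [∀ j, Fintype (io j)]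
  [∀ j, DecidableEq (io j)] {A : Type} [Fintype A] {T : Tgt io A}
  {K E : Type} [Field K] [Algebra ℂ K] [Field E] [Algebra ℂ E] (i₀ : (j : J) → io j)

/-- the affine coordinates -/
abbrev Af : Type := Σ j, {i : io j // i ≠ i₀ j}

/-- the affine coordinates of a point -/
def aff {R : Type} (y : Pnt io R) : Af i₀ → R := fun v => y v.1 v.2.1

/-- the point with given affine coordinates -/
def hmg {R : Type} [One R] (x : Af i₀ → R) : Pnt io R :=
  fun j i => if h : i = i₀ j then 1 else x ⟨j, i, h⟩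

/-- normalised coordinates -/
def Nr {R : Type} [One R] (y : Pnt io R) : Prop := ∀ j, y j (i₀ j) = 1

/-- normalisation -/
def nr (y : Pnt io K) : Pnt io K := scl (fun j => (y j (i₀ j))⁻¹) y

/-- dehomogenisation -/
def deh : MvPolynomial (Vr io) ℂ →ₐ[ℂ] MvPolynomial (Af i₀) ℂ :=
  aeval fun v => hmg i₀ X v.1 v.2

theorem card_Af : Fintype.card (Af i₀) = adim io := by
  simp [adim, Fintype.card_sigma, Fintype.card_subtype_compl]

variable {i₀} {y : Pnt io K}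

theorem nr_hmg {R : Type} [One R] (x : Af i₀ → R) : Nr i₀ (hmg i₀ x) := fun _ => dif_pos rfl

theorem aff_hmg {R : Type} [One R] (x : Af i₀ → R) : aff i₀ (hmg i₀ x) = x :=
  funext fun v => dif_neg v.2.2

theorem Nr.hmg_aff (h : Nr i₀ y) : hmg i₀ (aff i₀ y) = y := by
  funext j i
  by_cases hi : i = i₀ j
  · rw [hi, nr_hmg, h]
  · exact dif_neg hi

theorem Nr.nz (h : Nr i₀ y) : NZ y := fun j => ⟨i₀ j, h j ▸ one_ne_zero⟩

theorem nr_nr (h : ∀ j, y j (i₀ j) ≠ 0) : Nr i₀ (nr i₀ y) := fun j => inv_mul_cancel₀ (h j)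

theorem mapP_hmg (α : K →ₐ[ℂ] E) (x : Af i₀ → K) :
    mapP α (hmg i₀ x) = hmg i₀ fun v => α (x v) := by
  funext j i
  simp only [mapP, hmg]
  split_ifs <;> simp

theorem Nr.mem (h : Nr i₀ y) (j : J) (i : io j) : y j i ∈ adjoin ℂ (range (aff i₀ y)) := by
  by_cases hi : i = i₀ j
  · rw [hi, h]; exact one_mem _
  · exact IntermediateField.subset_adjoin _ _ ⟨⟨j, i, hi⟩, rfl⟩

theorem Nr.aeval_deh (h : Nr i₀ y) (q : MvPolynomial (Vr io) ℂ) :
    aeval (aff i₀ y) (deh i₀ q) = pv y q := by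
  rw [deh, ← AlgHom.comp_apply, comp_aeval, pv]
  congr 2
  funext v
  rw [← congrFun (congrFun h.hmg_aff v.1) v.2]
  simp only [hmg]
  split_ifs <;> simp

theorem pderiv_deh (v : Af i₀) (q : MvPolynomial (Vr io) ℂ) :
    pderiv v (deh i₀ q) = deh i₀ (pderiv ⟨v.1, v.2.1⟩ q) := by
  rw [deh, der_aeval, Finset.sum_eq_single ⟨v.1, v.2.1⟩]
  · simp [hmg, v.2.2]
  · rintro ⟨j, i⟩ - hw
    simp only [hmg]
    split_ifs with hi
    · simp
    · rw [pderiv_X_of_ne (by rintro rfl; exact hw rfl), smul_zero]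
  · simp

theorem Nr.grd_deh (h : Nr i₀ y) (q : MvPolynomial (Vr io) ℂ) (v : Af i₀) :
    grd (aff i₀ y) (deh i₀ q) v = pv y (pderiv ⟨v.1, v.2.1⟩ q) := by
  rw [grd, pderiv_deh, h.aeval_deh]

theorem sum_aff {f : Vr io → K} (h : ∀ j, f ⟨j, i₀ j⟩ = 0) :
    ∑ w, f w = ∑ v : Af i₀, f ⟨v.1, v.2.1⟩ := by
  rw [Fintype.sum_sigma, Fintype.sum_sigma]
  exact Finset.sum_congr rfl fun j _ => by
    rw [Fintype.sum_eq_add_sum_subtype_ne _ (i₀ j), h, zero_add]

theorem Nr.finrank_grd (h : Nr i₀ y) (hO : T.On y) :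
    finrank K (Submodule.span K (range fun a => grd (aff i₀ y) (deh i₀ (T.F a)))) =
      finrank K (T.Nm y) := by
  let N : Matrix A (Af i₀) K := Matrix.of fun a => grd (aff i₀ y) (deh i₀ (T.F a))
  have h1 : ∀ τ : Vr io → K, (∀ j, τ ⟨j, i₀ j⟩ = 0) →
      T.jac y τ = N.mulVecLin fun v => τ ⟨v.1, v.2.1⟩ := fun τ hτ => funext fun a => by
    rw [jac_apply, sum_aff (i₀ := i₀) fun j => by rw [hτ, mul_zero]]
    exact Finset.sum_congr rfl fun v _ => congrArg (· * _) (h.grd_deh _ v).symm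
  have h2 : LinearMap.range N.mulVecLin = T.Nm y := by
    refine le_antisymm ?_ ?_
    · rintro _ ⟨τ, rfl⟩
      refine ⟨fun w => if hw : w.2 = i₀ w.1 then 0 else τ ⟨w.1, w.2, hw⟩, ?_⟩
      rw [h1 _ fun j => dif_pos rfl]
      exact congrArg _ (funext fun v => dif_neg v.2.2)
    · rintro _ ⟨τ, rfl⟩
      refine ⟨_, (h1 (τ - vsc (fun j => τ ⟨j, i₀ j⟩) (vec y)) fun j => ?_).symm.trans ?_⟩
      · simp [vsc, vec, h j]
      · rw [map_sub, jac_euler T hO, sub_zero]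
  rw [← h2]
  exact (Matrix.rank_eq_finrank_span_row N).symm

theorem Nr.dim_add_le (h : Nr i₀ y) (hO : T.On y) (hg : adjoin ℂ (range (aff i₀ y)) = ⊤) :
    dim ℂ K + finrank K (T.Nm y) ≤ adim io := by
  rw [← h.finrank_grd hO, ← card_Af i₀]
  exact rank_add_le hg fun a => (h.aeval_deh _).trans (hO a)

theorem Nr.exists_rows (h : Nr i₀ y) (hO : T.On y) {n : ℕ} (hn : finrank K (T.Nm y) = n) :
    ∃ a : Fin n → A, LinearIndependent K fun b => grd (aff i₀ y) (deh i₀ (T.F (a b))) := by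
  rw [← h.finrank_grd hO] at hn
  subst hn
  obtain ⟨f, h1, -, h2⟩ := Submodule.exists_fun_fin_finrank_span_eq K
    (range fun a => grd (aff i₀ y) (deh i₀ (T.F a)))
  choose a ha using h1
  exact ⟨a, by rwa [funext ha]⟩

theorem deh_ne {q : MvPolynomial (Vr io) ℂ} {κ : J → ℕ} (hq : MH q κ) (h0 : q ≠ 0) :
    deh i₀ q ≠ 0 := fun h => by
  let L := FractionRing (MvPolynomial (Vr io) ℂ)
  let x : Pnt io L := fun j i => algebraMap (MvPolynomial (Vr io) ℂ) L (X ⟨j, i⟩)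
  have h1 : ∀ j, x j (i₀ j) ≠ 0 := fun j =>
    (map_ne_zero_iff _ (IsFractionRing.injective _ L)).2 (X_ne_zero _)
  have h2 := (nr_nr h1).aeval_deh q
  rw [h, map_zero, nr, pv_scl hq, eq_comm, mul_eq_zero] at h2
  have h3 : pv x q = algebraMap _ L q := by
    conv_rhs => rw [← aeval_X_left_apply q, ← aeval_algebraMap_apply]
    rfl
  exact h0 ((map_eq_zero_iff _ (IsFractionRing.injective _ L)).1
    (h3 ▸ h2.resolve_left (chr_ne (fun j => inv_ne_zero (h1 j)) _)))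

/-! ### the generic point -/

variable {c : ℕ}

theorem gen_scl (h : GenPt T c y) {g : J → K} (hg : ∀ j, g j ≠ 0) : GenPt T c (scl g y) where
  nz := nz_scl h.nz hg
  on := (on_scl_iff T hg).2 h.on
  gen := by simpa only [scl, mul_div_mul_left _ _ (hg _)] using h.gen
  dm := h.dm
  irr q κ hq h0 := h.irr q κ hq (by
    rw [pv_scl hq] at h0
    exact (mul_eq_zero.1 h0).resolve_left (chr_ne hg _))

theorem gen_adjoin (h : GenPt T c y) (hn : Nr i₀ y) : adjoin ℂ (range (aff i₀ y)) = ⊤ :=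
  top_unique (h.gen ▸ IntermediateField.adjoin_le_iff.2 (by
    rintro _ ⟨j, i, i', rfl⟩
    exact div_mem (hn.mem j i) (hn.mem j i')))

theorem gen_spec (h : GenPt T c y) (hn : Nr i₀ y) {η : Pnt io E} (hη : Nr i₀ η) (hO : T.On η)
    (q : MvPolynomial (Af i₀) ℂ) (hq : aeval (aff i₀ y) q = 0) : aeval (aff i₀ η) q = 0 := by
  obtain ⟨e, G, hG, h1⟩ := Syz.exists_homog (k := ℂ) (blk := (Sigma.fst : Vr io → J))
    (c := fun j => ⟨j, i₀ j⟩) (fun _ => rfl) (rename (fun v : Af i₀ => (⟨v.1, v.2.1⟩ : Vr io)) q)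
  have h2 := h1 K (vec y) (fun _ => 1) fun j => (one_mul _).trans (hn j)
  have h3 := h1 E (vec η) (fun _ => 1) fun j => (one_mul _).trans (hη j)
  simp only [one_mul, one_pow, Finset.prod_const_one, aeval_rename] at h2 h3
  exact h3.trans (h.irr G e hG (h2.symm.trans hq) E η hη.nz hO)

theorem gen_pos [Algebra.EssFiniteType ℂ K] (h : GenPt T c y) (hF : ∃ a, T.F a ≠ 0) : c ≠ 0 := by
  rintro rfl
  obtain ⟨a, ha⟩ := hF
  choose i₀ h0 using h.nz
  have h1 := gen_scl h fun j => inv_ne_zero (h0 j)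
  have h2 := algInd_of_dim (gen_adjoin h1 (nr_nr h0)) (by rw [card_Af, ← h.dm]; rfl)
  exact deh_ne (T.hom a) ha (h2.eq_zero_of_aeval_eq_zero _
    (((nr_nr h0).aeval_deh _).trans (h1.on a)))

/-- a point of the target of the right dimension is generic -/
theorem gen_hom [Algebra.EssFiniteType ℂ K] [Algebra.EssFiniteType ℂ E] (h : GenPt T c y)
    {η : Pnt io E} (hη : Nr i₀ η) (hO : T.On η) (hg : adjoin ℂ (range (aff i₀ η)) = ⊤)
    (hd : adim io ≤ dim ℂ E + c) :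
    (∀ j, y j (i₀ j) ≠ 0) ∧ ∃ α : K →ₐ[ℂ] E, mapP α (nr i₀ y) = η := by
  have h0 : ∀ j, y j (i₀ j) ≠ 0 := fun j h0 => by
    have := h.irr (X ⟨j, i₀ j⟩) _ (isWeightedHomogeneous_X ℂ _ _) (by simpa [pv] using h0) E η
      hη.nz hO
    simp [pv, hη j] at this
  have h1 := gen_scl h fun j => inv_ne_zero (h0 j)
  obtain ⟨α, hα⟩ := Lin62.exists_hom (gen_adjoin h1 (nr_nr h0)) (ρ := aff i₀ η) fun q =>
    (idl_eq_of_dim hg (gen_spec h1 (nr_nr h0) hη hO) (by have := h.dm; omega) q).symm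
  refine ⟨h0, α, ?_⟩
  rw [← (nr_nr h0).hmg_aff, mapP_hmg, ← hη.hmg_aff]
  exact congrArg _ (funext hα)

/-! ### charts at a place -/

theorem exists_chart (h : NZ y) (V : RZ ℂ K) :
    ∃ i₁ : (j : J) → io j, (∀ j, y j (i₁ j) ≠ 0) ∧ Prim V (nr i₁ y) := by
  choose i₁ h1 using fun j => exists_ln h j V
  exact ⟨i₁, fun j => RZ.ne_zero_iff.1 (h1 j ▸ val_ne _ _),
    prim_scl h fun j => by rw [map_inv₀, h1]⟩

theorem Nr.exists_sub (h : Nr i₀ y) : ∃ (κ : IntermediateField ℂ K) (η : Pnt io κ), Nr i₀ η ∧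
    adjoin ℂ (range (aff i₀ η)) = ⊤ ∧ y = mapP (toAlgHom ℂ κ K) η :=
  ⟨adjoin ℂ (range (aff i₀ y)), hmg i₀ fun v => ⟨_, IntermediateField.subset_adjoin _ _ ⟨v, rfl⟩⟩,
    nr_hmg _, by rw [aff_hmg]; exact Lin62.adjoin_sub _, by rw [mapP_hmg]; exact h.hmg_aff.symm⟩

theorem Nr.red (h : Nr i₀ y) (p : Pl ℂ K ℂ E) : Nr i₀ (redP p y) := fun j => by
  rw [redP, h, Pl.r_one]

theorem chart_change {L : Type} [Field L] [Algebra ℂ L] {p : Pl ℂ K ℂ E} (h : Nr i₀ y)
    {g : J → K} (hP : Prim p.V (scl g y)) {y₀ : Pnt io L} (h₀ : Nr i₀ y₀) {d : J → L}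
    (hd : ∀ j, d j ≠ 0) {α : L →ₐ[ℂ] E} (e : redP p (scl g y) = mapP α (scl d y₀)) :
    Prim p.V y ∧ redP p y = mapP α y₀ := by
  have h1 : ∀ j i, p.r (g j * y j i) = α (d j * y₀ j i) := fun j i => congrFun (congrFun e j) i
  have h2 : ∀ j, p.r (g j) = α (d j) := fun j => by simpa [h j, h₀ j] using h1 j (i₀ j)
  have h3 : ∀ j, p.V.v (g j) = 1 := fun j =>
    Pl.r_ne_zero_iff.1 (h2 j ▸ (map_ne_zero α).2 (hd j))
  have h4 : ∀ j i, y j i = g j * y j i / g j := fun j i =>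
    (mul_div_cancel_left₀ _ (RZ.ne_zero_iff.1 (h3 j ▸ one_ne_zero))).symm
  refine ⟨fun j => ⟨fun i => RZ.le_one_iff.1 ?_, i₀ j, by rw [h, map_one]⟩, ?_⟩
  · rw [h4 j i, map_div₀, h3, div_one]
    exact RZ.le_one_iff.2 ((hP j).1 i)
  · funext j i
    rw [redP, h4 j i, Pl.r_div (x := g j * y j i) ((hP j).1 i) (h3 j), h1, h2, ← map_div₀,
      mul_div_cancel_left₀ _ (hd j), mapP]

end Crest.Agent.X262.Tr89
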