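import Crest.Agent.X262.Tr89.Ex
import Crest.Agent.X262.Tr89.Pb

/-!
# Row 262, road B (helper89): the exceptional divisor over a smooth generic point

* `Sp p y η`     : the place `p` specialises the point `y` to `η`;
* `Sp.tr`, `Sp.pind` : `TR` in terms of the residues of the directions;
* `exists_blw`   : the order along the ideal of `η` is a divisorial valuation;
* `TR.rz_eq`     : uniqueness;  `Sp.bnum_one` : the exceptional divisor is projective space;
* `idl_eq_of_dim`: a specialisation which keeps the dimension keeps the ideal.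
-/

set_option autoImplicit false
set_option linter.unusedSectionVars false

noncomputable section

namespace Crest.Agent.X262.Tr89

open Crest.Agent.X277 Crest.Agent.X277.BD Crest.Agent.X277.Pst Crest.Agent.X277.BD.Cyc
open Crest.Agent.X277.Neg (nv)
open Crest.Agent.X262.Geo
open Crest.Agent.X262.Lin62 (eft_of_top exists_hom bez)
open MvPolynomial WithZero
open List (replicate)
open IntermediateField (adjoin)
open Set (range)

theorem TR.of_isEquiv {A K ι Γ Γ' : Type*} [CommRing A] [Field K]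
    [LinearOrderedCommGroupWithZero Γ] [LinearOrderedCommGroupWithZero Γ'] {v : Valuation K Γ}
    {w : Valuation K Γ'} {φ : A →+* K} {P : Ideal A} {s : ι → A} {t : K} (h : TR v φ P s t)
    (e : v.IsEquiv w) : TR w φ P s t :=
  ⟨fun x => e.le_one_iff_le_one.1 (h.le x), fun x => e.lt_one_iff_lt_one.symm.trans (h.lt x), h.ne,
    e.lt_one_iff_lt_one.1 h.tlt, fun i => (e _ _).1 (h.sle i),
    fun d G hG h1 => h.ind d G hG (e.lt_one_iff_lt_one.2 h1)⟩

theorem exists_lift {A κ ι : Type*} [CommRing A] [Field κ] {ψ : A →+* κ} (hf : Frc ψ) {e : ℕ}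
    {G : MvPolynomial ι κ} (hG : G.IsHomogeneous e) : ∃ d : κ, d ≠ 0 ∧
      ∃ G' : MvPolynomial ι A, G'.IsHomogeneous e ∧ map ψ G' = C d * G := by
  classical
  have h : ∀ T : Finset (ι →₀ ℕ), ∃ b, ψ b ≠ 0 ∧ ∀ m ∈ T, ∃ a, ψ a = ψ b * coeff m G := by
    intro T
    induction T using Finset.induction_on with
    | empty => exact ⟨1, by simp, by simp⟩
    | insert m T _ ih =>
      obtain ⟨b, hb, ih⟩ := ih
      obtain ⟨a, b', hb', h⟩ := hf (coeff m G)
      refine ⟨b * b', by simp [hb, hb'], Finset.forall_mem_insert _ _ _ |>.2 ⟨⟨b * a, ?_⟩, ?_⟩⟩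
      · rw [h, map_mul, map_mul, mul_assoc, mul_div_cancel₀ _ hb']
      · intro m' hm'
        obtain ⟨a', h'⟩ := ih m' hm'
        exact ⟨a' * b', by rw [map_mul, map_mul, h']; ring⟩
  obtain ⟨b, hb, h⟩ := h G.support
  choose! a ha using h
  refine ⟨ψ b, hb, ∑ m ∈ G.support, monomial m (a m),
    IsHomogeneous.sum _ _ _ fun m hm => isHomogeneous_monomial _ ?_, ?_⟩
  · have := hG (mem_support_iff.1 hm)
    rwa [Finsupp.degree_eq_weight_one]
  · conv_rhs => rw [G.as_sum, Finset.mul_sum]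
    rw [map_sum]
    exact Finset.sum_congr rfl fun m hm => by rw [map_monomial, ha m hm, C_mul_monomial]

variable {k K κ E σ ι : Type} [Field k] [Field K] [Algebra k K] [Field κ] [Algebra k κ] [Field E]
  [Algebra k E] {y : σ → K} {η : σ → κ} {s : ι → MvPolynomial σ k} {t : K}

theorem march {v : Valuation K ℤᵐ⁰} {W : RZ k K} (e : v.IsEquiv W.v) :
    MulArchimedean W.1.ValueGroup := ⟨fun x y hy => by
  obtain ⟨a, rfl⟩ := W.1.valuation_surjective x
  obtain ⟨b, rfl⟩ := W.1.valuation_surjective y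
  obtain ⟨n, hn⟩ := MulArchimedean.arch (v a) (e.one_lt_iff_one_lt.2 hy)
  exact ⟨n, by rw [← map_pow] at hn ⊢; exact (e _ _).1 hn⟩⟩

theorem march_dvs [CharZero k] [Algebra.EssFiniteType k K] {W : RZ k K} (hW : Dvs W) :
    MulArchimedean W.1.ValueGroup := march fun _ _ => nv_le_iff hW

theorem TR.rz_eq [CharZero k] [Algebra.EssFiniteType k K] {A : Type} [CommRing A] {φ : A →+* K}
    {P : Ideal A} {s : ι → A} {t' : K} {W W' : RZ k K} (h : TR W.v φ P s t)
    (h' : TR W'.v φ P s t') (hW : Dvs W) (hW' : Dvs W') (hg : Gen φ P s) (hf : Frc φ) : W = W' :=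
  have := march_dvs hW
  have := march_dvs hW'
  Subtype.ext (ValuationSubring.ext _ _ fun z => by
    rw [← RZ.le_one_iff, ← RZ.le_one_iff, h.le_one_iff h' hg hf])

theorem TR.nv_eq [CharZero k] [Algebra.EssFiniteType k K] {A : Type} [CommRing A] {φ : A →+* K}
    {P : Ideal A} {s : ι → A} {W : RZ k K} (h : TR W.v φ P s t) (hW : Dvs W) (hg : Gen φ P s)
    (hf : Frc φ) : nv W t = exp (-1) :=
  (h.of_isEquiv fun _ _ => (nv_le_iff hW).symm).unif hg hf (nv_unif hW)

theorem idl_eq_of_dim [CharZero k] [Algebra.EssFiniteType k K] [Algebra.EssFiniteType k κ]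
    [Fintype σ] (hη : adjoin k (range η) = ⊤)
    (h : ∀ q : MvPolynomial σ k, aeval y q = 0 → aeval η q = 0) (hd : dim k K ≤ dim k κ)
    (q : MvPolynomial σ k) : aeval y q = 0 ↔ aeval η q = 0 := by
  refine ⟨h q, fun h1 => by_contra fun h2 => ?_⟩
  let e := Fintype.equivFin σ
  have h3 := (bez (y ∘ e.symm) (s := η ∘ e.symm)
    (by rwa [e.symm.surjective.range_comp]) (fun q hq => by
      rw [← aeval_rename] at hq ⊢; exact h _ hq) (c := rename e q)
    (by rwa [aeval_rename, Function.comp_assoc, e.symm_comp_self, Function.comp_id])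
    (by rwa [aeval_rename, Function.comp_assoc, e.symm_comp_self, Function.comp_id]) le_rfl).1
  omega

variable [Algebra κ E] [IsScalarTower k κ E] {p : Pl k K k E}

/-- the place `p` specialises `y` to `η` -/
structure Sp (p : Pl k K k E) (y : σ → K) (η : σ → κ) : Prop where
  lnr : Lnr p
  mem : ∀ i, y i ∈ p.V.1
  res : ∀ i, p.r (y i) = algebraMap κ E (η i)

namespace Sp

theorem r_ev (h : Sp p y η) (q : MvPolynomial σ k) :
    p.r (aeval y q) = algebraMap κ E (aeval η q) := by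
  rw [(r_aeval h.lnr h.mem q).2, funext h.res, ← aeval_algebraMap_apply]
  rfl

theorem lt_iff (h : Sp p y η) (q : MvPolynomial σ k) :
    p.V.v (aeval y q) < 1 ↔ aeval η q = 0 := by
  rw [← Pl.r_eq_zero (r_aeval h.lnr h.mem q).1, h.r_ev, map_eq_zero]

theorem r_eval₂ (h : Sp p y η) {u : ι → K} (hu : ∀ a, u a ∈ p.V.1)
    (G : MvPolynomial ι (MvPolynomial σ k)) : eval₂ (evH k y) u G ∈ p.V.1 ∧
      p.r (eval₂ (evH k y) u G) = aeval (fun a => p.r (u a)) (map (evH k η) G) := by
  induction G using MvPolynomial.induction_on with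
  | C a =>
    rw [eval₂_C, map_C, aeval_C]
    exact ⟨(r_aeval h.lnr h.mem a).1, h.r_ev a⟩
  | add G H hG hH =>
    rw [eval₂_add, map_add, map_add]
    exact ⟨add_mem hG.1 hH.1, by rw [Pl.r_add hG.1 hH.1, hG.2, hH.2]⟩
  | mul_X G a hG =>
    rw [eval₂_mul, eval₂_X, map_mul, map_mul, map_X, aeval_X]
    exact ⟨mul_mem hG.1 (hu a), by rw [Pl.r_mul hG.1 (hu a), hG.2]⟩

theorem tr (h : Sp p y η) (ht : t ≠ 0) (hl : p.V.v t < 1)
    (hs : ∀ a, p.V.v (aeval y (s a)) ≤ p.V.v t)
    (hi : PInd κ fun a => p.r (aeval y (s a) / t)) : TR p.V.v (evH k y) (idl k η) s t where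
  le q := RZ.le_one_iff.2 (r_aeval h.lnr h.mem q).1
  lt q := h.lt_iff q
  ne := ht
  tlt := hl
  sle := hs
  ind e G hG h1 m := by
    obtain ⟨h2, h3⟩ := h.r_eval₂ (u := fun a => aeval y (s a) / t)
      (fun a => (RZ.le_iff ht).1 (hs a)) G
    have h4 := hi e _ (hG.map _) (h3.symm.trans ((Pl.r_eq_zero h2).2 h1))
    rw [RingHom.mem_ker, ← coeff_map, h4, coeff_zero]

variable [Fintype σ]

theorem pind (h : Sp p y η) (hη : adjoin k (range η) = ⊤)
    (hT : TR p.V.v (evH k y) (idl k η) s t) : PInd κ fun a => p.r (aeval y (s a) / t) := by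
  intro e G hG h0
  obtain ⟨d, hd, G', h1, h2⟩ := exists_lift (frc_evH hη) hG
  obtain ⟨h3, h4⟩ := h.r_eval₂ (u := fun a => aeval y (s a) / t)
    (fun a => (RZ.le_iff hT.ne).1 (hT.sle a)) G'
  rw [h2, map_mul, h0, mul_zero, Pl.r_eq_zero h3] at h4
  have h5 : map (evH k η) G' = 0 := by
    ext m
    rw [coeff_map, coeff_zero]
    exact hT.ind e G' h1 h4 m
  exact (mul_eq_zero.1 (h2.symm.trans h5)).resolve_left (by rwa [C_eq_zero])

variable [MulArchimedean p.V.1.ValueGroup]

theorem adjoin_top (h : Sp p y η) (hK : adjoin k (range y) = ⊤) (hsur : Function.Surjective p.φ)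
    (hT : TR p.V.v (evH k y) (idl k η) s t) (hg : Gen (evH k y) (idl k η) s) :
    adjoin κ (range fun a => p.r (aeval y (s a) / t)) = ⊤ := by
  refine top_unique fun x _ => ?_
  obtain ⟨z, rfl⟩ := hsur x
  rw [← p.r_coe]
  by_cases h0 : p.r z = 0
  · rw [h0]; exact zero_mem _
  obtain ⟨e, G, H, -, -, -, h2, h3⟩ := hT.exists_quot hg (frc_evH hK) (Pl.r_ne_zero_iff.1 h0)
  have h4 := h.r_eval₂ (u := fun a => aeval y (s a) / t) fun a => (RZ.le_iff hT.ne).1 (hT.sle a)
  have h5 : ∀ G : MvPolynomial ι κ, aeval (fun a => p.r (aeval y (s a) / t)) G ∈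
      adjoin κ (range fun a => p.r (aeval y (s a) / t)) := fun G =>
    IntermediateField.algebra_adjoin_le_adjoin _ _ (by
      rw [Algebra.adjoin_range_eq_range_aeval]; exact ⟨G, rfl⟩)
  rw [h3]
  refine (Pl.r_div (h4 G).1 h2).symm ▸ div_mem ?_ ?_
  · exact (h4 G).2.symm ▸ h5 _
  · exact (h4 H).2.symm ▸ h5 _

variable {n : ℕ} {s : Fin (n + 1) → MvPolynomial σ k}

theorem adjoin_top' (h : Sp p y η) (hK : adjoin k (range y) = ⊤) (hsur : Function.Surjective p.φ)
    (hT : TR p.V.v (evH k y) (idl k η) s (aeval y (s 0))) (hg : Gen (evH k y) (idl k η) s) :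
    adjoin κ (range fun i : Fin n => p.r (aeval y (s i.succ) / aeval y (s 0)) /
      p.r (aeval y (s 0) / aeval y (s 0))) = ⊤ := by
  refine top_unique (h.adjoin_top hK hsur hT hg ▸ IntermediateField.adjoin_le_iff.2 ?_)
  rw [div_self hT.ne, Pl.r_one]
  rintro _ ⟨a, rfl⟩
  refine Fin.cases ?_ (fun a => IntermediateField.subset_adjoin _ _ ⟨a, div_one _⟩) a
  simp only [div_self hT.ne, Pl.r_one]
  exact one_mem _

theorem dim_eq [CharZero κ] (h : Sp p y η) (hK : adjoin k (range y) = ⊤)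
    (hη : adjoin k (range η) = ⊤) (hsur : Function.Surjective p.φ)
    (hT : TR p.V.v (evH k y) (idl k η) s (aeval y (s 0))) (hg : Gen (evH k y) (idl k η) s) :
    dim κ E = n :=
  (dim_eq_card (h.adjoin_top' hK hsur hT hg) (h.pind hη hT).algInd).trans (Fintype.card_fin n)

theorem bnum_one [CharZero κ] [Algebra.EssFiniteType κ E] (h : Sp p y η)
    (hK : adjoin k (range y) = ⊤) (hη : adjoin k (range η) = ⊤) (hsur : Function.Surjective p.φ)
    (hT : TR p.V.v (evH k y) (idl k η) s (aeval y (s 0))) (hg : Gen (evH k y) (idl k η) s) :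
    bnum (replicate n (mxf κ fun a => p.r (aeval y (s a) / aeval y (s 0)))) = 1 :=
  bnum_proj ((h.pind hη hT).ne 0) (h.adjoin_top' hK hsur hT hg) (h.dim_eq hK hη hsur hT hg)

end Sp

/-- the exceptional divisor of the blow-up of a generically smooth centre -/
theorem exists_blw [CharZero k] [Fintype σ] [Algebra.EssFiniteType k K] {n : ℕ}
    {s : Fin (n + 1) → MvPolynomial σ k} (hy : AlgebraicIndependent k y)
    (hK : adjoin k (range y) = ⊤) (hη : adjoin k (range η) = ⊤) (hs : ∀ a, aeval η (s a) = 0)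
    (hli : LinearIndependent κ fun a => grd η (s a))
    (hd : Fintype.card σ = dim k κ + (n + 1)) :
    ∃ (W : RZ k K) (α : κ →ₐ[k] Rf W), Dvs W ∧ (∀ i, y i ∈ W.1) ∧
      (∀ i, (plV W).r (y i) = α (η i)) ∧ TR W.v (evH k y) (idl k η) s (aeval y (s 0)) := by
  have hg : Gen (evH k y) (idl k η) s := gen_evH hη hs hli (by simpa using hd.le) _
  obtain ⟨v, hv⟩ := exists_TR hy hK hs hli hg 0
  have h0 : ∀ c : k, v (algebraMap k K c) ≤ 1 := fun c => by simpa using hv.le (C c)
  have hT : TR (rz v h0).v (evH k y) (idl k η) s (aeval y (s 0)) :=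
    hv.of_isEquiv fun _ _ => (v_rz_le_iff v h0).symm
  have hA : MulArchimedean (rz v h0).1.ValueGroup := march fun _ _ => (v_rz_le_iff v h0).symm
  generalize rz v h0 = W at hT hA
  have hm : ∀ i, y i ∈ W.1 := fun i => RZ.le_one_iff.1 (by simpa using hT.le (X i))
  obtain ⟨α, hα⟩ := exists_hom hη (ρ := fun i => (plV W).r (y i)) fun q => by
    obtain ⟨h1, h2⟩ := r_aeval (lnr_plV W) hm q
    rw [← h2, Pl.r_eq_zero h1]
    exact hT.lt q
  refine ⟨W, α, ?_, hm, fun i => (hα i).symm, hT⟩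
  let _ := α.toRingHom.toAlgebra
  have : MulArchimedean (plV W).V.1.ValueGroup := hA
  have : IsScalarTower k κ (Rf W) := .of_algebraMap_eq fun c => (α.commutes c).symm
  have : CharZero κ := charZero_of_injective_algebraMap (algebraMap k κ).injective
  have hS : Sp (plV W) y η := ⟨lnr_plV W, hm, fun i => (hα i).symm⟩
  have := eft_of_top hη
  have := eft_of_top (hS.adjoin_top hK (surj_plV W) hT hg)
  have : Algebra.EssFiniteType k (Rf W) := .comp k κ _
  refine dvs_of_dim (fun h => ?_) ?_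
  · have h1 : W.v (aeval y (s 0))⁻¹ ≤ 1 := RZ.le_one_iff.2 (h ▸ ValuationSubring.mem_top _)
    rw [map_inv₀, inv_le_one₀ hT.pos] at h1
    exact hT.tlt.not_ge h1
  · rw [dim_eq_card hK hy, Loc.dim_tower k κ (Rf W), hS.dim_eq hK hη (surj_plV W) hT hg, hd,
      add_assoc]

end Crest.Agent.X262.Tr89
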