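import Crest.Agent.X262.Tr89.Aff

/-!
# Row 262, road B (helper89): the degree zero invariants

* `vir_cst_zero`, `vir_cst` : the virtual number of the constant configuration;
* `deg0Stmt_of : Ax0Stmt → Deg0Stmt`.
-/

set_option autoImplicit false
set_option linter.unusedSectionVars false

noncomputable section

namespace Crest.Agent.X262.Tr89

open Crest.Agent.X277 Crest.Agent.X277.BD Crest.Agent.X277.Pst Crest.Agent.X277.BD.Cyc
open Crest.Agent.X277.Neg (nv)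
open Crest.Agent.X262.Geo Crest.Agent.X262.Hb Crest.Agent.X262.Vb Crest.Agent.X262.Vb.Cfg
open Crest.Agent.X262.Node22 (scl)
open Crest.Agent.X262.Bub96 (hv)
open Crest.Agent.X262.Bub96.Tr (dot)
open Module WithZero
open List (replicate)
open Set (range)
open IntermediateField (adjoin)
open IsScalarTower (toAlgHom)

section

open MvPolynomial

theorem Sp.mem_span {K κ E σ ι : Type} [Field K] [Algebra ℂ K] [Field κ] [Algebra ℂ κ] [Field E]
    [Algebra ℂ E] [Algebra κ E] [IsScalarTower ℂ κ E] [Fintype ι] {p : Pl ℂ K ℂ E} {y : σ → K}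
    {η : σ → κ} {s : ι → MvPolynomial σ ℂ} {t : K} (h : Sp p y η)
    (hg : Gen (evH ℂ y) (idl ℂ η) s) (ht : t ≠ 0) (hs : ∀ a, p.V.v (aeval y (s a)) ≤ p.V.v t)
    {q : MvPolynomial σ ℂ} (hq : aeval η q = 0) : p.V.v (aeval y q) ≤ p.V.v t ∧
      p.r (aeval y q / t) ∈ Submodule.span κ (range fun a => p.r (aeval y (s a) / t)) := by
  obtain ⟨g, hg, z, hz, h1⟩ := hg q hq
  rw [pow_one, Ideal.mem_span_range_iff_exists_fun] at hz
  obtain ⟨u, rfl⟩ := hz
  have h0 := fun q => (r_aeval h.lnr h.mem q).1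
  have h2 : p.V.v (aeval y g) = 1 :=
    le_antisymm (RZ.le_one_iff.2 (h0 g)) (not_lt.1 fun h3 => hg ((h.lt_iff g).1 h3))
  have h3 : aeval y q / t = (∑ a, aeval y (u a) * (aeval y (s a) / t)) / aeval y g := by
    rw [eq_div_iff (RZ.ne_zero_iff.1 (h2 ▸ one_ne_zero)), div_mul_eq_mul_div, mul_comm,
      show aeval y g * aeval y q = _ from h1]
    simp [mul_div_assoc, Finset.sum_div]
  have h4 : ∀ a, aeval y (s a) / t ∈ p.V.1 := fun a => (RZ.le_iff ht).1 (hs a)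
  have h5 := sum_mem (t := Finset.univ) fun a _ => mul_mem (h0 (u a)) (h4 a)
  refine ⟨(RZ.le_iff ht).2 (RZ.le_one_iff.1 ?_), ?_⟩
  · rw [h3, map_div₀, h2, div_one]
    exact RZ.le_one_iff.2 h5
  rw [h3, Pl.r_div h5 h2, Tree87.r_sum _ fun a _ => mul_mem (h0 (u a)) (h4 a), h.r_ev,
    div_eq_inv_mul, ← map_inv₀, ← Algebra.smul_def]
  refine Submodule.smul_mem _ _ (sum_mem fun a _ => ?_)
  rw [Pl.r_mul (h0 _) (h4 a), h.r_ev, ← Algebra.smul_def]
  exact Submodule.smul_mem _ _ (Submodule.subset_span ⟨a, rfl⟩)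

variable {J : Type} [Fintype J] [DecidableEq J] {io : J → Type} [∀ j, Fintype (io j)]
  [∀ j, DecidableEq (io j)] {A : Type} [Fintype A] {B : Th} {T : Tgt io A}
  {I M : Type} [Fintype I] [Nonempty I] {K L : Type} [Field K] [Algebra ℂ K] [Field L]
  [Algebra ℂ L] {Φ : MFam B io M} {r : ℕ} {i₀ : (j : J) → io j} {y : Pnt io K} {y₀ : Pnt io L}
  {W : RZ ℂ K}

theorem exists_max_F (hy : ¬ T.On y) (W : RZ ℂ K) :
    ∃ a, pv y (T.F a) ≠ 0 ∧ ∀ b, W.v (pv y (T.F b)) ≤ W.v (pv y (T.F a)) := by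
  obtain ⟨b, hb⟩ := not_forall.1 hy
  have : Nonempty A := ⟨b⟩
  obtain ⟨a, ha⟩ := Finite.exists_max fun a => W.v (pv y (T.F a))
  exact ⟨a, RZ.ne_zero_iff.1 ((RZ.pos hb).trans_le (ha b)).ne', ha⟩

theorem not_on (h : ((cst I y).dv T).val W ≠ 1) : ¬ T.On y := fun h1 =>
  h (by rw [dv_of_on T (z := cst I y) fun _ => h1]; rfl)

theorem scl_one (y : Pnt io K) : scl (fun _ => 1) y = y := funext fun _ => funext fun _ => one_mul _

variable [Algebra.EssFiniteType ℂ K] [Algebra.EssFiniteType ℂ L]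

/-- a component with a non zero contribution lies over a generic point of the target -/
theorem key (hB : B.Ax) (hΦ : MCls B T Φ) (hS : ∀ (E : Type) [Field E] [Algebra ℂ E]
    (y : Pnt io E), Vb.NZ y → T.On y → finrank E (T.Nm y) = r + 1) (hy : Vb.NZ y) (hW : Dvs W)
    (m : M → I) (h : od W ((cst I y).dv T) * B.itg (Rf W) (trm B T (cst I y) m Φ W) ≠ 0)
    (hd : adim io ≤ dim ℂ K) : dim ℂ K = adim io ∧ ∃ (i₁ : (j : J) → io j)
      (κ : IntermediateField ℂ (Rf W)) (η : Pnt io κ), Prim W (nr i₁ y) ∧ Nr i₁ η ∧ T.On η ∧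
      adjoin ℂ (range (aff i₁ η)) = ⊤ ∧ redP (plV W) (nr i₁ y) = mapP (toAlgHom ℂ κ (Rf W)) η ∧
      adim io ≤ dim ℂ κ + (r + 1) := by
  have := essFT_Rf hW
  have h0 : ((cst I y).dv T).val W ≠ 1 := fun h1 =>
    left_ne_zero_of_mul h (by rw [(od_eq_zero hW).2 h1, Int.cast_zero])
  obtain ⟨i₁, h1, h2⟩ := exists_chart hy W
  have hc := fun j => inv_ne_zero (h1 j)
  obtain ⟨κ, η, h3, h4, h5⟩ := ((nr_nr h1).red (plV W)).exists_sub
  have h6 : T.On η := by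
    have h7 := ((Geq.red_red0 (p := plV W) (z := cst I y) (z' := cst I (nr i₁ y))
      ⟨fun _ => _, fun _ => hc, (cst_gau hc y).symm⟩ fun _ => h2).on T).2
      (on_red_of T (lnr_plV W) (fun _ => hy) h0) (Classical.arbitrary I)
    rw [cst_red0, h5] at h7
    exact (Vb.on_map T _).1 h7
  have h7 := h3.dim_add_le h6 h4
  have h8 := dim_Rf' hW
  rw [hS κ η h3.nz h6] at h7
  obtain ⟨a, h9, h10⟩ := exists_max_F (mt (on_scl_iff T hc).1 (not_on h0)) W
  rw [itg_cst hB hΦ hW hc h2 h5 h6 (hS κ η h3.nz h6) (by omega) h9 h10 ⟨a, rfl⟩ m] at h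
  have h11 := length_of_ne (Int.cast_ne_zero.1 (left_ne_zero_of_mul (right_ne_zero_of_mul h)))
  have h12 := Loc.dim_tower ℂ κ (Rf W)
  rw [List.length_replicate] at h11
  exact ⟨by omega, i₁, κ, η, h2, h3, h6, h4, h5, by omega⟩

theorem vir_cst_zero (hB : B.Ax) (hΦ : MCls B T Φ) (hS : ∀ (E : Type) [Field E] [Algebra ℂ E]
    (y : Pnt io E), Vb.NZ y → T.On y → finrank E (T.Nm y) = r + 1) (hy : Vb.NZ y) (m : M → I)
    (hd : adim io < dim ℂ K) : vir B T (cst I y) m Φ = 0 :=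
  finsum_dvs_zero fun _ hW => by_contra fun h => hd.ne' (key hB hΦ hS hy hW m h hd.le).1

section Gen

variable [Algebra L (Rf W)] [IsScalarTower ℂ L (Rf W)]

theorem sp_aff (hP : Prim W y) (e : redP (plV W) y = mapP (toAlgHom ℂ L (Rf W)) y₀) :
    Sp (plV W) (aff i₀ y) (aff i₀ y₀) :=
  ⟨lnr_plV W, fun v => (hP v.1).1 _, fun v => congrFun (congrFun e v.1) _⟩

theorem trm_gen [CharZero L] [Algebra.EssFiniteType L (Rf W)] (hB : B.Ax) (hΦ : MCls B T Φ)
    (hW : Dvs W) (hn : Nr i₀ y) (hn₀ : Nr i₀ y₀) (hO : T.On y₀) (hr : finrank L (T.Nm y₀) = r + 1)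
    (hd : r + dim ℂ L ≤ dim ℂ (Rf W)) (hP : Prim W y)
    (e : redP (plV W) y = mapP (toAlgHom ℂ L (Rf W)) y₀) {a : Fin (r + 1) → A}
    (hg : Gen (evH ℂ (aff i₀ y)) (idl ℂ (aff i₀ y₀)) fun b => deh i₀ (T.F (a b))) {t : K}
    (h0 : t ≠ 0) (h1 : ∀ b, W.v (aeval (aff i₀ y) (deh i₀ (T.F (a b)))) ≤ W.v t)
    (h2 : ∃ x, W.v (pv y (T.F x)) = W.v t) (m : M → I) :
    (∀ x, W.v (pv y (T.F x)) ≤ W.v t) ∧
    (∃ b, (plV W).r (aeval (aff i₀ y) (deh i₀ (T.F (a b))) / t) ≠ 0) ∧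
    B.itg (Rf W) (trm B T (cst I y) m Φ W) =
      bnum (replicate r (mxf L fun b => (plV W).r (aeval (aff i₀ y) (deh i₀ (T.F (a b))) / t))) *
        B.itg L (Φ L fun _ => y₀) := by
  have h3 := fun x => (sp_aff (i₀ := i₀) hP e).mem_span hg h0 h1 ((hn₀.aeval_deh _).trans (hO x))
  simp only [hn.aeval_deh] at h3 ⊢
  have h4 : ∃ x, (plV W).r (pv y (T.F x) / t) ≠ 0 := h2.imp fun x hx => Pl.r_ne_zero_iff.2 (by
    change W.v _ = 1
    rw [map_div₀, hx, div_self (RZ.pos h0).ne'])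
  refine ⟨fun x => (h3 x).1, by_contra fun h5 => ?_, ?_⟩
  · obtain ⟨x, hx⟩ := h4
    refine hx ((Submodule.span_eq_bot.2 ?_).le (h3 x).2)
    rintro _ ⟨b, rfl⟩
    exact not_not.1 (not_exists.1 h5 b)
  have h5 := itg_cst (I := I) hB hΦ hW (c := fun _ => 1) (fun _ => one_ne_zero) (y := y) (η := y₀)
    (t := t) (r := r)
  rw [scl_one] at h5
  rw [h5 hP e hO hr hd h0 (fun x => (h3 x).1) h2 m,
    Lin62.mxf_congr h4 (fun x => (h3 x).2) fun b => Submodule.subset_span ⟨a b, rfl⟩]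

end Gen

theorem vir_cst (hB : B.Ax) (hΦ : MCls B T Φ) (hS : ∀ (E : Type) [Field E] [Algebra ℂ E]
    (y : Pnt io E), Vb.NZ y → T.On y → finrank E (T.Nm y) = r + 1) (h₀ : GenPt T (r + 1) y₀)
    (hn₀ : Nr i₀ y₀) (hn : Nr i₀ y) (hy : AlgebraicIndependent ℂ (aff i₀ y))
    (hK : adjoin ℂ (range (aff i₀ y)) = ⊤) (m : M → I) :
    vir B T (cst I y) m Φ = B.itg L (Φ L fun _ => y₀) := by
  have : CharZero L := charZero_of_injective_algebraMap (algebraMap ℂ L).injective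
  have hr := hS L y₀ h₀.nz h₀.on
  have hη := gen_adjoin h₀ hn₀
  have hd := h₀.dm
  have hdK : dim ℂ K = adim io := (dim_eq_card hK hy).trans (card_Af i₀)
  obtain ⟨a, hli⟩ := hn₀.exists_rows h₀.on hr
  have hs : ∀ x, aeval (aff i₀ y₀) (deh i₀ (T.F x)) = 0 := fun x =>
    (hn₀.aeval_deh _).trans (h₀.on x)
  have hg : Gen (evH ℂ (aff i₀ y)) (idl ℂ (aff i₀ y₀)) fun b => deh i₀ (T.F (a b)) :=
    gen_evH hη (fun b => hs _) hli (by rw [card_Af, Fintype.card_fin]; exact hd.ge) _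
  obtain ⟨W₀, α₀, hW₀, h1, h2, hT₀⟩ := exists_blw hy hK hη (fun b => hs (a b)) hli
    (by rw [card_Af, hd])
  rw [vir, finsum_dvs (T := {W₀}) (by simpa using hW₀) fun W hW h => Finset.mem_singleton.2 ?_,
    Finset.sum_singleton]
  · let _ := α₀.toRingHom.toAlgebra
    have : IsScalarTower ℂ L (Rf W₀) := .of_algebraMap_eq fun c => (α₀.commutes c).symm
    have := essFT_Rf hW₀
    have : Algebra.EssFiniteType L (Rf W₀) := .of_comp ℂ L _
    have : MulArchimedean (plV W₀).V.1.ValueGroup := march_dvs hW₀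
    have h3 := dim_Rf' hW₀
    have hP : Prim W₀ y := fun j => ⟨fun i => by
      by_cases hi : i = i₀ j
      · rw [hi, hn]; exact one_mem _
      · exact h1 ⟨j, i, hi⟩, i₀ j, by rw [hn, map_one]⟩
    have e : redP (plV W₀) y = mapP (toAlgHom ℂ L (Rf W₀)) y₀ := by
      rw [← (hn.red (plV W₀)).hmg_aff, ← hn₀.hmg_aff, mapP_hmg]
      exact congrArg _ (funext h2)
    have h4 : ∃ x, W₀.v (pv y (T.F x)) = W₀.v (aeval (aff i₀ y) (deh i₀ (T.F (a 0)))) :=
      ⟨a 0, by rw [hn.aeval_deh]⟩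
    obtain ⟨h5, -, h6⟩ := trm_gen hB hΦ hW₀ hn hn₀ h₀.on hr (by omega) hP e hg hT₀.ne hT₀.sle h4 m
    have h7 := (lin_dv (T := T) (z := cst I y) (p := plV W₀) (fun _ => hP) hT₀.ne
      (fun x => h5 x.1) (h4.elim fun x hx => ⟨(x, Classical.arbitrary I), hx⟩)).1
    rw [h6, (sp_aff hP e).bnum_one hK hη (surj_plV W₀) hT₀ hg, od_of_gen hW₀ h7.symm, map_inv₀,
      hT₀.nv_eq hW₀ hg (frc_evH hK), ← exp_neg, log_exp]
    simp
  have := essFT_Rf hW
  obtain ⟨-, i₁, κ, η, h3, h4, h5, h6, h7, h8⟩ := key hB hΦ hS hn.nz hW m h hdK.ge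
  obtain ⟨h9, α, rfl⟩ := gen_hom h₀ h4 h5 h6 h8
  obtain ⟨hP, e⟩ := chart_change (p := plV W) (α := (toAlgHom ℂ κ (Rf W)).comp α) hn h3 hn₀
    (fun j => inv_ne_zero (h9 j)) h7
  generalize (toAlgHom ℂ κ (Rf W)).comp α = β at e
  let _ := β.toRingHom.toAlgebra
  have : IsScalarTower ℂ L (Rf W) := .of_algebraMap_eq fun c => (β.commutes c).symm
  have : Algebra.EssFiniteType L (Rf W) := .of_comp ℂ L _
  have h10 := dim_Rf' hW
  obtain ⟨x, h11, h12⟩ := exists_max_F (T := T) (not_on (I := I) (y := y) (W := W) fun h1 =>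
    left_ne_zero_of_mul h (by rw [(od_eq_zero hW).2 h1, Int.cast_zero])) W
  have h13 : ∀ b, W.v (aeval (aff i₀ y) (deh i₀ (T.F (a b)))) ≤ W.v (pv y (T.F x)) := fun b => by
    rw [hn.aeval_deh]; exact h12 _
  obtain ⟨-, ⟨b, hb⟩, h14⟩ := trm_gen hB hΦ hW hn hn₀ h₀.on hr (by omega) hP e hg h11 h13 ⟨x, rfl⟩ m
  rw [h14] at h
  have h15 := pind_of_dim hb (le_dim_of_bnum hb
    (Int.cast_ne_zero.1 (left_ne_zero_of_mul (right_ne_zero_of_mul h))))
  have hSp := sp_aff (i₀ := i₀) (W := W) (y₀ := y₀) hP e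
  exact (hSp.tr h11 (hn.aeval_deh (T.F x) ▸ (hSp.lt_iff _).2 (hs x)) h13 h15).rz_eq hT₀ hW hW₀ hg
    (frc_evH hK)

theorem exists_gen (τ : Type) : ∃ (F : Type) (_ : Field F) (_ : Algebra ℂ F) (x : τ → F),
    AlgebraicIndependent ℂ x ∧ adjoin ℂ (range x) = ⊤ := by
  refine ⟨FractionRing (MvPolynomial τ ℂ), inferInstance, inferInstance,
    fun i => algebraMap (MvPolynomial τ ℂ) _ (X i), (MvPolynomial.algebraicIndependent_X τ ℂ).map'
      (f := toAlgHom ℂ _ _) (IsFractionRing.injective _ _), top_unique fun z _ => ?_⟩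
  obtain ⟨a, b, -, rfl⟩ := IsFractionRing.div_surjective (A := MvPolynomial τ ℂ) z
  have h : ∀ q : MvPolynomial τ ℂ, algebraMap _ (FractionRing (MvPolynomial τ ℂ)) q ∈
      adjoin ℂ (range fun i => algebraMap (MvPolynomial τ ℂ) (FractionRing (MvPolynomial τ ℂ))
        (X i)) := fun q => IntermediateField.algebra_adjoin_le_adjoin _ _ (by
    rw [Algebra.adjoin_range_eq_range_aeval]
    refine ⟨q, ?_⟩
    conv_rhs => rw [← aeval_X_left_apply q, ← aeval_algebraMap_apply]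
    rfl)
  exact div_mem (h a) (h b)

end

/-! ### data of degree zero -/

open Polynomial

variable {J : Type} [Fintype J] [DecidableEq J] {io : J → Type} [∀ j, Fintype (io j)]
  [∀ j, DecidableEq (io j)] {I K : Type} [Field K] [Algebra ℂ K]

theorem hv_zero {σ : K[X]} (h : σ.natDegree ≤ 0) (t : Option K) : hv 0 σ t = σ.coeff 0 := by
  cases t with
  | none => rfl
  | some t => rw [eq_C_of_natDegree_le_zero h]; simp [hv]

theorem dot_zero (κ : J → ℕ) : dot κ 0 = 0 := by simp [dot]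

theorem nrmUp_zero [Nonempty I] (ξ : Dat io 0 I K) (N : ℕ) : ξ.NrmUp N := by
  intro κ _ L _ _ α W σ hσ h t
  have h1 := h (Classical.arbitrary I)
  have h2 : ∀ t t', (ξ.map α).pt t = (ξ.map α).pt t' := fun t t' => funext fun j => funext fun i =>
    (hv_zero ((ξ.map α).cp.1 j i) t).trans (hv_zero ((ξ.map α).cp.1 j i) t').symm
  rw [dot_zero] at hσ h1 ⊢
  rwa [hv_zero hσ, h2 _ t, ← hv_zero hσ t] at h1

/-- the constant map -/
def dat {y : Pnt io K} (hy : Vb.NZ y) (x : I → Option K) : Dat io 0 I K where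
  f j i := C (y j i)
  x := x
  cp := ⟨fun _ _ => (natDegree_C _).le, fun j => (hy j).imp fun i hi => by simpa using hi,
    fun j => (hy j).elim fun i hi => Ideal.eq_top_of_isUnit_mem _ (Ideal.subset_span ⟨i, rfl⟩)
      (isUnit_C.2 hi.isUnit)⟩

theorem dat_cfg [Fintype I] {y : Pnt io K} (hy : Vb.NZ y) (x : I → Option K) :
    (dat hy x).cfg = cst I y := by
  refine Cfg.ext (fun q => funext fun j => funext fun i => ?_) fun κ => ?_
  · exact (hv_zero (natDegree_C _).le _).trans (coeff_C_zero)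
  ext u
  simp only [Dat.cfg, cst, mem_one, dot_zero, Submodule.mem_map, mem_degreeLE]
  refine ⟨?_, fun ⟨a, h⟩ => ⟨C a, degree_C_le, funext fun q => ?_⟩⟩
  · rintro ⟨σ, hσ, rfl⟩
    exact ⟨_, funext fun q => hv_zero (natDegree_le_iff_degree_le.2 hσ) _⟩
  · rw [h]
    exact (hv_zero (natDegree_C _).le _).trans coeff_C_zero

theorem eqv_dat {y : Pnt io K} (hy : Vb.NZ y) (x : I → Option K) :
    ((dat hy x).map (AlgHom.id ℂ K)).Eqv ((dat hy x).res id) :=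
  ⟨1, fun _ => 1, by simp, by simp, fun j i => by simp [Dat.res, Dat.map, dat, mob],
    fun q => ⟨1, by simp [Dat.res, Dat.map]⟩⟩

theorem three_le {d : J → ℕ} [Fintype I] {ξ : Dat io d I K} (h : ξ.Univ) : 3 ≤ Fintype.card I := by
  obtain ⟨⟨a, b, c, ha, hb, hc⟩, -⟩ := h
  refine Fintype.two_lt_card_iff.2 ⟨a, b, c, ?_, ?_, ?_⟩ <;> rintro rfl <;> simp_all

theorem exists_univ [Fintype I] (h : 3 ≤ Fintype.card I) (i₀ : (j : J) → io j) :
    ∃ (F : Type) (_ : Field F) (_ : Algebra ℂ F) (_ : Algebra.EssFiniteType ℂ F) (y : Pnt io F)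
      (hy : Nr i₀ y) (x : I → Option F), (dat hy.nz x).Univ ∧
      dim ℂ F + 3 = adim io + Fintype.card I ∧ (Fintype.card I = 3 →
        AlgebraicIndependent ℂ (aff i₀ y) ∧ adjoin ℂ (range (aff i₀ y)) = ⊤) := by
  classical
  obtain ⟨a, b, c, hab, hac, hbc⟩ := Fintype.two_lt_card_iff.1 h
  obtain ⟨F, _, _, u, h1, h2⟩ := exists_gen (Af i₀ ⊕ {q : I // q ∉ ({a, b, c} : Finset I)})
  have := Lin62.eft_of_top h2
  have h3 : Fintype.card {q : I // q ∉ ({a, b, c} : Finset I)} + 3 = Fintype.card I := by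
    rw [Fintype.card_subtype_compl, Fintype.card_coe, Finset.card_eq_three.2
      ⟨a, b, c, hab, hac, hbc, rfl⟩, Nat.sub_add_cancel h]
  have h4 : dim ℂ F + 3 = adim io + Fintype.card I := by
    rw [dim_eq_card h2 h1, Fintype.card_sum, card_Af, add_assoc, h3]
  refine ⟨F, inferInstance, inferInstance, this, hmg i₀ (u ∘ Sum.inl), nr_hmg _, fun q =>
    if hq : q ∈ ({a, b, c} : Finset I) then (if q = a then none else if q = b then some 0 else some 1)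
    else some (u (Sum.inr ⟨q, hq⟩)), ⟨⟨a, b, c, ?_, ?_, ?_⟩, ?_, ?_⟩, h4, fun h5 => ?_⟩
  · simp [dat]
  · simp [dat, hab.symm]
  · simp [dat, hac.symm, hbc.symm]
  · refine top_unique (h2 ▸ IntermediateField.adjoin.mono _ _ _ ?_)
    rintro _ ⟨v | q, rfl⟩
    · exact Or.inl ⟨v.1, v.2.1, i₀ v.1, 0, 0, by simp [dat, hmg, v.2.2]⟩
    · exact Or.inr ⟨q.1, dif_neg q.2⟩
  · rw [trdeg_eq_dim, Nat.cast_inj]
    simp only [mdim, Pi.zero_apply, zero_add, mul_one]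
    exact (Nat.sub_eq_of_eq_add h4.symm).symm
  · have : IsEmpty {q : I // q ∉ ({a, b, c} : Finset I)} := Fintype.card_eq_zero_iff.1 (by omega)
    rw [aff_hmg]
    refine ⟨h1.comp _ Sum.inl_injective, ?_⟩
    rwa [Function.Surjective.range_comp fun v => v.rec (fun v => ⟨v, rfl⟩) isEmptyElim]

/-- the degree zero axiom -/
theorem deg0Stmt_of (h : Ax0Stmt) : Deg0Stmt := by
  intro B hB J _ _ io _ _ A _ T c hT L _ _ _ y₀ h₀ M _ Φ hΦ
  by_cases hM : 3 ≤ Fintype.card M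
  swap
  · have h1 : ∀ v, IsGW B T 0 Φ v := fun v =>
      ⟨0, fun K K₀ I _ _ _ _ _ _ _ ξ m θ ⟨ξ₀, h1, _⟩ => absurd (three_le h1) hM⟩
    rw [GW, dif_neg fun h2 => zero_ne_one (h2.unique (h1 0) (h1 1)), if_neg (by omega)]
  obtain ⟨N, hN⟩ := (h B hB T c 0 (hT.good 0)).gw Φ hΦ
  obtain ⟨r, rfl⟩ := Nat.exists_eq_succ_of_ne_zero (gen_pos h₀ hT.1)
  obtain ⟨-, S, hS⟩ := hT
  choose i₀ h0 using h₀.nz
  obtain ⟨F, _, _, _, y, hy, x, h1, h2, h3⟩ := exists_univ hM i₀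
  have : Nonempty M := Fintype.card_pos_iff.1 (by omega)
  have h4 := hN F F M (dat hy.nz x) id (AlgHom.id ℂ F)
    ⟨_, h1, eqv_dat _ x⟩ (nrmUp_zero _ N)
  rw [deg_id, Nat.cast_one, one_mul, dat_cfg] at h4
  rw [← h4]
  split_ifs with h5
  · rw [vir_cst hB hΦ (fun E _ _ z h6 h7 => (hS E z h6 h7).1)
      (gen_scl h₀ fun j => inv_ne_zero (h0 j)) (nr_nr h0) hy (h3 h5).1 (h3 h5).2 id]
    exact congrArg _ (hΦ.scl L (fun _ => y₀) (fun _ j => (y₀ j (i₀ j))⁻¹)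
      (fun _ j => inv_ne_zero (h0 j)) (fun _ => h₀.nz) fun _ => h₀.on)
  · exact vir_cst_zero hB hΦ (fun E _ _ z h6 h7 => (hS E z h6 h7).1) hy.nz id (by omega)

end Crest.Agent.X262.Tr89
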