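import Crest.Agent.X262.Tr89.Blw
import Crest.Agent.X262.Vb.Bas1
import Crest.Agent.X262.Vb.Defs

/-!
# Row 262, road B (helper89): a component whose configuration is defined over a subfield

* `itg_exc` : `∫_E Q(c1 l) Φ = ((-l)^{r})_{E/κ} ∫_κ Φ` for a configuration defined over `κ`;
* `lin_dv`  : the restriction of the zero divisor is minus the size of the direction;
* `itg_trm` : the integrand of `vir` on such a component;
* `cst I y` : the constant configuration, `itg_cst`.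
-/

set_option autoImplicit false
set_option linter.unusedSectionVars false

noncomputable section

namespace Crest.Agent.X262.Tr89

open Crest.Agent.X277 Crest.Agent.X277.BD Crest.Agent.X277.Pst Crest.Agent.X277.BD.Cyc
open Crest.Agent.X262.Geo Crest.Agent.X262.Hb Crest.Agent.X262.Vb Crest.Agent.X262.Vb.Cfg
open Crest.Agent.X262.Node22 (scl chr vec chr_ne mem_Eb)
open List (replicate)
open Set (range)
open IsScalarTower (toAlgHom)

variable {J : Type} [Fintype J] [DecidableEq J] {io : J → Type} [∀ j, Fintype (io j)]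
  [∀ j, DecidableEq (io j)] {A : Type} [Fintype A] {B : Th} {T : Tgt io A}
  {I M : Type} [Fintype I] {K κ E : Type} [Field K] [Algebra ℂ K] [Field κ] [Algebra ℂ κ]
  [Field E] [Algebra ℂ E] {Φ : MFam B io M} {r : ℕ}

theorem mcls_map (hΦ : MCls B T Φ) [Algebra.EssFiniteType ℂ κ] [Algebra.EssFiniteType ℂ E]
    (α : κ →ₐ[ℂ] E) {y : M → Pnt io κ} (h : ∀ q, Vb.NZ (y q)) (hO : ∀ q, T.On (y q)) :
    (Φ E fun q => mapP α (y q)) = B.pb (LP.hom α) (Φ κ y) := by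
  rw [hΦ.nat κ E (LP.hom α) y (fun q => prim_hom α (h q)) hO]
  simp only [redP_hom]

theorem lin_dv {z : Cfg io I K} {p : Pl ℂ K ℂ E} (hz : z.Pr p.V) {t : K} (h0 : t ≠ 0)
    (h1 : ∀ x, p.V.v (z.sv T x) ≤ p.V.v t) (h2 : ∃ x, p.V.v (z.sv T x) = p.V.v t) :
    (z.dv T).val p.V = p.V.v t⁻¹ ∧
      Lin (-p.rs (z.dv T)) (sz (fun x => p.r (z.sv T x / t)) ((z.red0 p).ea T)) := by
  obtain ⟨x, hx⟩ := h2
  have h3 : z.sv T ≠ 0 := fun h => by
    rw [h, Pi.zero_apply, map_zero] at hx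
    exact (RZ.pos h0).ne hx
  have h4 : nm (z.ea T) p.V (z.sv T) = p.V.v t :=
    le_antisymm (nm_le.2 fun x => by rw [hz.val_ea, mul_one]; exact h1 x)
      (by simpa [hz.val_ea, hx] using le_nm (z.ea T) p.V (z.sv T) x)
  have h5 : (z.dv T).val p.V = p.V.v t⁻¹ := by rw [dv, val_neg, val_sz h3, h4, map_inv₀]
  have h6 : nm (z.ea T) p.V (t⁻¹ • z.sv T) = 1 := by
    rw [nm_smul, h4, ← map_mul, inv_mul_cancel₀ h0, map_one]
  have h7 : z.dv T - pr ℂ t⁻¹ = -sz (t⁻¹ • z.sv T) (z.ea T) := by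
    rw [sz_smul h3 (inv_ne_zero h0), dv]; abel
  refine ⟨h5, ?_⟩
  have h8 := (Pl.lin_rs h5.symm).neg
  rw [h7, Pl.res_neg (by rw [val_sz (smul_ne_zero (inv_ne_zero h0) h3), h6]), neg_neg,
    res_sz p (hz.val_ea T) h6, ← ea_red0 T hz] at h8
  simpa only [Pi.smul_apply, smul_eq_mul, ← div_eq_inv_mul] using h8

section Tower

variable [Algebra κ E] [IsScalarTower ℂ κ E]

theorem ex_eq {P : Type} [Fintype P] (g : P → E) (U : Submodule κ (P → κ)) :
    ex g U = sclS g (mapS (toAlgHom ℂ κ E) U) := by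
  rw [ex, sclS, mapS, Submodule.map_span]
  congr 1
  ext w
  exact ⟨fun ⟨u, hu, h⟩ => ⟨_, ⟨u, hu, rfl⟩, h⟩, fun ⟨_, ⟨u, hu, rfl⟩, h⟩ => ⟨u, hu, h⟩⟩

theorem up_sz {P : Type} [Fintype P] {w : P → E} (hw : w ≠ 0) {a : P → BD ℂ E}
    (ha : ∀ x, up κ (a x) = 0) : up κ (sz w a) = mxf κ w := by
  have h1 : ∀ (V : RZ κ E) x, (a x).val (V.dn ℂ) = 1 := fun V x =>
    (val_up (a x) V).symm.trans (by rw [ha]; rfl)
  refine eq_mxf (fun i V => ?_) fun V => ?_
  · have h2 := le_nm a (V.dn ℂ) w i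
    rw [h1, mul_one, ← val_sz hw] at h2
    exact h2.trans_eq (val_up (sz w a) V).symm
  · obtain ⟨i, -, h2⟩ := exists_nm a (V.dn ℂ) hw
    rw [h1, mul_one, ← val_sz hw] at h2
    exact ⟨i, h2.trans (val_up (sz w a) V).symm⟩

theorem up_ea (z : Cfg io I κ) (x : A × I) : up κ ((z.map (toAlgHom ℂ κ E)).ea T x) = 0 := by
  rw [ea_map]
  exact up_pb _ (fun _ => rfl) _

variable [Algebra.EssFiniteType ℂ κ] [Algebra.EssFiniteType ℂ E] [CharZero κ]
  [Algebra.EssFiniteType κ E]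

theorem itg_exc (hB : B.Ax) (hΦ : MCls B T Φ) {z₀ : Cfg io I κ} (hz : z₀.NZ) (hO : z₀.On T)
    (hr : Module.finrank κ (z₀.Eb T) = r + 1) (hd : r + dim ℂ κ ≤ dim ℂ E) {z : Cfg io I E}
    (h : Geq (z₀.map (toAlgHom ℂ κ E)) z) (m : M → I) (l : BD ℂ E) :
    B.itg E (exc B T z (B.c1 l) * Φ E fun q => z.y (m q)) =
      bnum (replicate r (up κ (-l))) * B.itg κ (Φ κ fun q => z₀.y (m q)) := by
  obtain ⟨g, hg, rfl⟩ := h
  have h1 := hΦ.scl E (fun q => mapP (toAlgHom ℂ κ E) (z₀.y (m q))) (fun q => g (m q))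
    (fun q => hg _) (fun q => (nz_map _).2 (hz _)) fun q => (Vb.on_map T _).2 (hO _)
  rw [mcls_map hΦ _ (fun q => hz (m q)) fun q => hO (m q)] at h1
  have h2 : (Φ E fun q => ((z₀.map (toAlgHom ℂ κ E)).gau g).y (m q)) =
      B.pb (LP.hom (toAlgHom ℂ κ E)) (Φ κ fun q => z₀.y (m q)) := h1
  have h3 : ((z₀.map (toAlgHom ℂ κ E)).gau g).Eb T =
      ex (fun x : A × I => chr (g x.2) (T.k x.1)) (z₀.Eb T) := by rw [Eb_gau T hg, Eb_map, ex_eq]
  have h4 : ∀ x : A × I, up κ (((z₀.map (toAlgHom ℂ κ E)).gau g).ea T x) =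
      pr κ (chr (g x.2) (T.k x.1)) := fun x => by
    rw [ea_gau T (hz.map _) hg, map_add, up_ea, zero_add, up_pr]
  have h5 := itg_cq hB (g := fun x : A × I => chr (g x.2) (T.k x.1)) (fun x => chr_ne (hg x.2) _)
    h4 hr hd l (Φ κ fun q => z₀.y (m q))
  rw [h2, exc, h3, h5]

end Tower

section Trm

variable [CharZero κ]

theorem itg_trm (hB : B.Ax) (hΦ : MCls B T Φ) [Algebra.EssFiniteType ℂ K] {W : RZ ℂ K}
    (hW : Dvs W) [Algebra κ (Rf W)] [IsScalarTower ℂ κ (Rf W)] [Algebra.EssFiniteType ℂ κ]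
    [Algebra.EssFiniteType κ (Rf W)] {z z' : Cfg io I K} (hz : Geq z z') (hP : z'.Pr W) {z₀ : Cfg io I κ}
    (h : z'.red0 (plV W) = z₀.map (toAlgHom ℂ κ (Rf W))) (hO : z₀.On T)
    (hr : Module.finrank κ (z₀.Eb T) = r + 1) (hd : r + dim ℂ κ ≤ dim ℂ (Rf W)) {t : K}
    (h0 : t ≠ 0) (h1 : ∀ x, W.v (z'.sv T x) ≤ W.v t) (h2 : ∃ x, W.v (z'.sv T x) = W.v t)
    (m : M → I) : B.itg (Rf W) (trm B T z m Φ W) =
      bnum (replicate r (mxf κ fun x => (plV W).r (z'.sv T x / t))) *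
        B.itg κ (Φ κ fun q => z₀.y (m q)) := by
  have := essFT_Rf hW
  have h3 : z₀.NZ := fun q => (nz_map (toAlgHom ℂ κ (Rf W))).1 (by
    have h4 := Pr.nz_red0 (p := plV W) hP q
    rwa [h] at h4)
  rw [trm, hB.pb_c1, itg_exc hB hΦ h3 hO hr hd (h ▸ (hz.red_red0 (p := plV W) hP).symm)]
  congr 2
  have h5 := (lin_dv (T := T) (p := plV W) hP h0 h1 h2).2.up κ
  rw [hz.dv T (hz.symm.nz hP.nz), h, up_sz _ (up_ea z₀)] at h5
  · exact bnum_rep h5 r
  · obtain ⟨x, hx⟩ := h2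
    refine Function.ne_iff.2 ⟨x, Pl.r_ne_zero_iff.2 ?_⟩
    change W.v _ = 1
    rw [map_div₀, hx, div_self (RZ.pos h0).ne']

end Trm

/-! ### constant configurations -/

variable (I) in
/-- the configuration of a constant map -/
def cst (y : Pnt io K) : Cfg io I K := ⟨fun _ => y, fun _ => K ∙ fun _ => 1⟩

variable {y y' : Pnt io K}

theorem mem_one {u : I → K} : u ∈ (K ∙ fun _ : I => (1 : K)) ↔ ∃ a, u = fun _ => a := by
  rw [Submodule.mem_span_singleton]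
  exact exists_congr fun a => by rw [eq_comm, show (a • fun _ : I => (1 : K)) = fun _ => a from
    funext fun _ => mul_one a]

theorem cst_gau {c : J → K} (hc : ∀ j, c j ≠ 0) (y : Pnt io K) :
    (cst I y).gau (fun _ => c) = cst I (scl c y) := by
  refine Cfg.ext (fun _ => rfl) fun κ => ?_
  ext u
  rw [gau_V, mem_sclS' fun _ => chr_ne hc κ]
  simp only [cst, mem_one]
  refine ⟨fun ⟨a, h⟩ => ⟨chr c κ * a, funext fun q => ?_⟩, fun ⟨a, h⟩ => ⟨_, by rw [h]⟩⟩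
  rw [← congrFun h q, mul_inv_cancel_left₀ (chr_ne hc κ)]

theorem redS_one (p : Pl ℂ K ℂ E) : redS p (K ∙ fun _ : I => (1 : K)) = E ∙ fun _ => 1 := by
  refine le_antisymm (redS_le fun u hu _ => ?_) ((Submodule.span_singleton_le_iff_mem _ _).2 ?_)
  · obtain ⟨a, rfl⟩ := mem_one.1 hu
    exact mem_one.2 ⟨_, rfl⟩
  · simpa using mem_redS p (Submodule.mem_span_singleton_self fun _ : I => (1 : K))
      fun _ => one_mem _

theorem cst_red0 (p : Pl ℂ K ℂ E) (y : Pnt io K) : (cst I y).red0 p = cst I (redP p y) :=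
  Cfg.ext (fun _ => rfl) fun _ => redS_one p

theorem cst_map (α : K →ₐ[ℂ] E) (y : Pnt io K) : (cst I y).map α = cst I (mapP α y) := by
  rw [← red0_hom, cst_red0, redP_hom]

theorem finrank_cst [Nonempty I] (y : Pnt io K) :
    Module.finrank K ((cst I y).Eb T) = Module.finrank K (T.Nm y) := by
  have h : (cst I y).Eb T = (T.Nm y).map (LinearMap.funLeft K K Prod.fst) := by
    ext σ
    rw [mem_Eb]
    simp only [cst, mem_one]
    obtain ⟨q₀⟩ := ‹Nonempty I›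
    refine ⟨fun ⟨h1, h2⟩ => ⟨_, h2 q₀, funext fun x => ?_⟩, ?_⟩
    · obtain ⟨a, ha⟩ := h1 x.1
      exact (congrFun ha q₀).trans (congrFun ha x.2).symm
    · rintro ⟨n, hn, rfl⟩
      exact ⟨fun a => ⟨n a, rfl⟩, fun _ => hn⟩
  rw [h]
  exact (Submodule.equivMapOfInjective _
    (LinearMap.funLeft_injective_of_surjective K K _ Prod.fst_surjective) _).finrank_eq.symm

/-- the integrand on a component of the space of constant maps -/
theorem itg_cst (hB : B.Ax) (hΦ : MCls B T Φ) [Nonempty I] [Algebra.EssFiniteType ℂ K]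
    {W : RZ ℂ K} (hW : Dvs W) [Algebra κ (Rf W)] [IsScalarTower ℂ κ (Rf W)]
    [Algebra.EssFiniteType ℂ κ] [CharZero κ] [Algebra.EssFiniteType κ (Rf W)] {c : J → K}
    (hc : ∀ j, c j ≠ 0) (hP : Prim W (scl c y))
    {η : Pnt io κ} (h : redP (plV W) (scl c y) = mapP (toAlgHom ℂ κ (Rf W)) η) (hO : T.On η)
    (hr : Module.finrank κ (T.Nm η) = r + 1) (hd : r + dim ℂ κ ≤ dim ℂ (Rf W)) {t : K}
    (h0 : t ≠ 0) (h1 : ∀ a, W.v (pv (scl c y) (T.F a)) ≤ W.v t)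
    (h2 : ∃ a, W.v (pv (scl c y) (T.F a)) = W.v t) (m : M → I) :
    B.itg (Rf W) (trm B T (cst I y) m Φ W) =
      bnum (replicate r (mxf κ fun a => (plV W).r (pv (scl c y) (T.F a) / t))) *
        B.itg κ (Φ κ fun _ => η) := by
  obtain ⟨a, ha⟩ := h2
  obtain ⟨q⟩ := ‹Nonempty I›
  have h3 : (plV W).r (pv (scl c y) (T.F a) / t) ≠ 0 := Pl.r_ne_zero_iff.2 (by
    change W.v _ = 1
    rw [map_div₀, ha, div_self (RZ.pos h0).ne'])
  rw [itg_trm hB hΦ hW (z' := cst I (scl c y)) (z₀ := cst I η)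
    ⟨fun _ => c, fun _ => hc, (cst_gau hc y).symm⟩ (fun _ => hP) (by rw [cst_red0, cst_map, h])
    (fun _ => hO) (by rw [finrank_cst, hr]) hd h0 (fun x => h1 x.1) ⟨(a, q), ha⟩ m]
  congr 4
  exact Lin62.mxf_congr ⟨(a, q), h3⟩ (fun x => Submodule.subset_span ⟨x.1, rfl⟩)
    fun a => Submodule.subset_span ⟨(a, q), rfl⟩

end Crest.Agent.X262.Tr89
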