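import Mathlib

/-!
# Row 262, road B (helper89): valuations with a generic direction

`TR v φ P s t`: the valuation `v` of `K` is centred at the prime `P` of `A` (through `φ`), the
elements `s i` have order at least that of `t`, and the residues of `s i / t` satisfy no
homogeneous relation over `A ⧸ P`.  If `s` generates `P` locally (`Gen`), then `v` is the order
along `P`: it is unique, `t` is a uniformiser, the residue field is generated by `A ⧸ P` and the
`s i / t`.  No regularity and no noetherian hypothesis is needed.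
-/

set_option autoImplicit false

noncomputable section

namespace Crest.Agent.X262.Tr89

open MvPolynomial WithZero

variable {A K ι : Type*} [CommRing A] [Field K]

/-- `φ x` has order at least `e` along `s`, locally at `P`. -/
def Ord (φ : A →+* K) (P : Ideal A) (s : ι → A) (x : A) (e : ℕ) : Prop :=
  ∃ g, g ∉ P ∧ ∃ z ∈ Ideal.span (Set.range s) ^ e, φ g * φ x = φ z

/-- `s` generates `P` locally at `P`, modulo the kernel of `φ`. -/
def Gen (φ : A →+* K) (P : Ideal A) (s : ι → A) : Prop := ∀ x ∈ P, Ord φ P s x 1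

variable {φ : A →+* K} {P : Ideal A} {s : ι → A} {x y : A} {e : ℕ} {t : K}

theorem Ord.zero (hP : P.IsPrime) (x : A) : Ord φ P s x 0 :=
  ⟨1, (Ideal.ne_top_iff_one P).1 hP.ne_top, x, by simp, by simp⟩

theorem Ord.mono {e' : ℕ} (h : Ord φ P s x e) (he : e' ≤ e) : Ord φ P s x e' := by
  obtain ⟨g, hg, z, hz, h⟩ := h
  exact ⟨g, hg, z, Ideal.pow_le_pow_right he hz, h⟩

theorem Ord.of_mem (hP : P.IsPrime) (h : x ∈ Ideal.span (Set.range s) ^ e) : Ord φ P s x e :=
  ⟨1, (Ideal.ne_top_iff_one P).1 hP.ne_top, x, h, by simp⟩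

theorem Ord.add (hP : P.IsPrime) (h : Ord φ P s x e) (h' : Ord φ P s y e) :
    Ord φ P s (x + y) e := by
  obtain ⟨g, hg, z, hz, h⟩ := h
  obtain ⟨g', hg', z', hz', h'⟩ := h'
  refine ⟨g * g', fun h0 => (hP.mem_or_mem h0).elim hg hg', g' * z + g * z',
    add_mem (Ideal.mul_mem_left _ _ hz) (Ideal.mul_mem_left _ _ hz'), ?_⟩
  simp only [map_mul, map_add]
  linear_combination φ g' * h + φ g * h'

theorem Ord.mul (hP : P.IsPrime) {e' : ℕ} (h : Ord φ P s x e) (h' : Ord φ P s y e') :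
    Ord φ P s (x * y) (e + e') := by
  obtain ⟨g, hg, z, hz, h⟩ := h
  obtain ⟨g', hg', z', hz', h'⟩ := h'
  refine ⟨g * g', fun h0 => (hP.mem_or_mem h0).elim hg hg', z * z', ?_, ?_⟩
  · rw [pow_add]; exact Ideal.mul_mem_mul hz hz'
  · simp only [map_mul]
    rw [← h, ← h']; ring

theorem Ord.sum (hP : P.IsPrime) {β : Type*} (T : Finset β) {f : β → A}
    (h : ∀ b ∈ T, Ord φ P s (f b) e) : Ord φ P s (∑ b ∈ T, f b) e :=
  Finset.sum_induction f (fun x => Ord φ P s x e) (fun _ _ => Ord.add hP)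
    (Ord.of_mem hP (zero_mem _)) h

theorem Ord.of_mul (hP : P.IsPrime) {g : A} (hg : g ∉ P) (h : φ g * φ x = φ y)
    (hy : Ord φ P s y e) : Ord φ P s x e := by
  obtain ⟨g', hg', z, hz, h'⟩ := hy
  exact ⟨g' * g, fun h0 => (hP.mem_or_mem h0).elim hg' hg, z, hz, by
    rw [map_mul, mul_assoc, h, h']⟩

/-- a form of degree `e` with coefficients in `P` has order `e + 1` -/
theorem Gen.ord_eval (hP : P.IsPrime) (hg : Gen φ P s) {G : MvPolynomial ι A}
    (hG : G.IsHomogeneous e) (h : ∀ m, coeff m G ∈ P) : Ord φ P s (eval s G) (e + 1) := by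
  rw [eval_eq]
  refine Ord.sum hP _ fun m hm => ?_
  rw [add_comm e 1]
  refine (hg _ (h m)).mul hP (Ord.of_mem hP ?_)
  rw [Ideal.mem_span_pow_iff_exists_isHomogeneous]
  refine ⟨monomial m 1, isHomogeneous_monomial _ ?_, by simp [eval_monomial, Finsupp.prod]⟩
  have := hG (mem_support_iff.1 hm)
  rwa [Finsupp.degree_eq_weight_one]

theorem eval₂_div {G : MvPolynomial ι A} (hG : G.IsHomogeneous e) (ht : t ≠ 0) :
    φ (eval s G) = t ^ e * eval₂ φ (fun i => φ (s i) / t) G := by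
  rw [eval_eq, eval₂_eq, map_sum, Finset.mul_sum]
  refine Finset.sum_congr rfl fun m hm => ?_
  have h1 : ∑ i ∈ m.support, m i = e := by
    have := hG (mem_support_iff.1 hm)
    rw [← this]
    simp [Finsupp.weight_apply, Finsupp.sum]
  simp only [map_mul, map_prod, map_pow, div_pow, Finset.prod_div_distrib,
    Finset.prod_pow_eq_pow_sum, h1]
  field_simp

variable {Γ : Type*} [LinearOrderedCommGroupWithZero Γ]

/-- `v` is centred at `P` and the direction `s / t` is generic. -/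
structure TR (v : Valuation K Γ) (φ : A →+* K) (P : Ideal A) (s : ι → A) (t : K) : Prop where
  le : ∀ x, v (φ x) ≤ 1
  lt : ∀ x, v (φ x) < 1 ↔ x ∈ P
  ne : t ≠ 0
  tlt : v t < 1
  sle : ∀ i, v (φ (s i)) ≤ v t
  ind : ∀ (e : ℕ) (G : MvPolynomial ι A), G.IsHomogeneous e →
    v (eval₂ φ (fun i => φ (s i) / t) G) < 1 → ∀ m, coeff m G ∈ P

namespace TR

variable {v : Valuation K Γ}

theorem eq_one (h : TR v φ P s t) (hx : x ∉ P) : v (φ x) = 1 :=
  (h.le x).antisymm (not_lt.1 fun h0 => hx ((h.lt x).1 h0))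

theorem prime (h : TR v φ P s t) : P.IsPrime := by
  refine ⟨fun h0 => ?_, fun {a b} hab => ?_⟩
  · have := (h.lt 1).2 (h0 ▸ Submodule.mem_top)
    simp at this
  · by_contra h0
    push Not at h0
    have := (h.lt _).2 hab
    rw [map_mul, map_mul, h.eq_one h0.1, h.eq_one h0.2] at this
    simp at this

theorem pos (h : TR v φ P s t) : 0 < v t := by
  rw [zero_lt_iff]; simpa using h.ne

theorem div_le (h : TR v φ P s t) (i : ι) : v (φ (s i) / t) ≤ 1 := by
  rw [map_div₀, div_le_one₀ h.pos]; exact h.sle i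

theorem eval₂_le (h : TR v φ P s t) (G : MvPolynomial ι A) :
    v (eval₂ φ (fun i => φ (s i) / t) G) ≤ 1 := by
  induction G using MvPolynomial.induction_on with
  | C a => simpa using h.le a
  | add p q hp hq => rw [eval₂_add]; exact (v.map_add _ _).trans (max_le hp hq)
  | mul_X p i hp => rw [eval₂_mul, eval₂_X, map_mul]; exact mul_le_one' hp (h.div_le i)

theorem exists_form (h : TR v φ P s t) (hx : Ord φ P s x e) : ∃ g, g ∉ P ∧
    ∃ G : MvPolynomial ι A, G.IsHomogeneous e ∧ φ g * φ x = φ (eval s G) ∧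
      φ g * φ x = t ^ e * eval₂ φ (fun i => φ (s i) / t) G := by
  obtain ⟨g, hg, z, hz, h1⟩ := hx
  obtain ⟨G, hG, rfl⟩ := (Ideal.mem_span_pow_iff_exists_isHomogeneous _ _).1 hz
  exact ⟨g, hg, G, hG, h1, h1.trans (eval₂_div hG h.ne)⟩

theorem le_pow (h : TR v φ P s t) (hx : Ord φ P s x e) : v (φ x) ≤ v t ^ e := by
  obtain ⟨g, hg, G, -, -, h1⟩ := h.exists_form hx
  have h2 := congrArg v h1
  rw [map_mul, h.eq_one hg, one_mul, map_mul, map_pow] at h2
  rw [h2]
  exact mul_le_of_le_one_right' (h.eval₂_le G)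

/-- the initial form of an element of order exactly `e` -/
theorem exists_init (h : TR v φ P s t) (hg : Gen φ P s) (hx : Ord φ P s x e)
    (hx' : ¬ Ord φ P s x (e + 1)) : ∃ g, g ∉ P ∧ ∃ G : MvPolynomial ι A, G.IsHomogeneous e ∧
      v (eval₂ φ (fun i => φ (s i) / t) G) = 1 ∧
      φ g * φ x = t ^ e * eval₂ φ (fun i => φ (s i) / t) G := by
  obtain ⟨g, hg', G, hG, h1, h2⟩ := h.exists_form hx
  refine ⟨g, hg', G, hG, (h.eval₂_le G).antisymm (not_lt.1 fun h0 => hx' ?_), h2⟩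
  exact Ord.of_mul h.prime hg' h1 (hg.ord_eval h.prime hG (h.ind e G hG h0))

theorem eq_pow (h : TR v φ P s t) (hg : Gen φ P s) (hx : Ord φ P s x e)
    (hx' : ¬ Ord φ P s x (e + 1)) : v (φ x) = v t ^ e := by
  obtain ⟨g, hg', G, -, h1, h2⟩ := h.exists_init hg hx hx'
  have h3 := congrArg v h2
  rwa [map_mul, h.eq_one hg', one_mul, map_mul, map_pow, h1, mul_one] at h3

variable [MulArchimedean Γ]

theorem exists_ord (h : TR v φ P s t) (hx : φ x ≠ 0) :
    ∃ e, Ord φ P s x e ∧ ¬ Ord φ P s x (e + 1) := by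
  classical
  have h0 : v (φ x) ≠ 0 := by simpa using hx
  obtain ⟨n, hn⟩ := exists_pow_lt₀ h.tlt (Units.mk0 _ h0)
  have h1 : ∃ e, ¬ Ord φ P s x (e + 1) :=
    ⟨n, fun h2 => (hn.trans_le (h.le_pow (h2.mono (Nat.le_succ n)))).false⟩
  refine ⟨Nat.find h1, ?_, Nat.find_spec h1⟩
  rcases h2 : Nat.find h1 with _ | m
  · exact Ord.zero h.prime x
  · exact not_not.1 (Nat.find_min h1 (by omega))

theorem exists_pow (h : TR v φ P s t) (hg : Gen φ P s) (hx : φ x ≠ 0) :
    ∃ e : ℕ, v (φ x) = v t ^ e := by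
  obtain ⟨e, h1, h2⟩ := h.exists_ord hx
  exact ⟨e, h.eq_pow hg h1 h2⟩

/-- the order relation is determined by `φ, P, s` -/
theorem le_iff {Γ' : Type*} [LinearOrderedCommGroupWithZero Γ'] {v' : Valuation K Γ'} {t' : K}
    (h : TR v φ P s t) (h' : TR v' φ P s t') (hg : Gen φ P s) (x y : A) :
    v (φ x) ≤ v (φ y) ↔ v' (φ x) ≤ v' (φ y) := by
  by_cases hx : φ x = 0
  · simp [hx]
  by_cases hy : φ y = 0
  · simp [hx, hy]
  obtain ⟨a, h1, h2⟩ := h.exists_ord hx
  obtain ⟨b, h3, h4⟩ := h.exists_ord hy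
  rw [h.eq_pow hg h1 h2, h.eq_pow hg h3 h4, h'.eq_pow hg h1 h2, h'.eq_pow hg h3 h4,
    pow_le_pow_iff_right_of_lt_one₀ h.pos h.tlt, pow_le_pow_iff_right_of_lt_one₀ h'.pos h'.tlt]

end TR

/-- `K` is the field of fractions of the image of `φ` -/
def Frc (φ : A →+* K) : Prop := ∀ z : K, ∃ a b, φ b ≠ 0 ∧ z = φ a / φ b

namespace TR

variable {v : Valuation K Γ} [MulArchimedean Γ]

/-- uniqueness of the valuation -/
theorem le_one_iff {Γ' : Type*} [LinearOrderedCommGroupWithZero Γ'] {v' : Valuation K Γ'} {t' : K}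
    (h : TR v φ P s t) (h' : TR v' φ P s t') (hg : Gen φ P s) (hf : Frc φ) (z : K) :
    v z ≤ 1 ↔ v' z ≤ 1 := by
  obtain ⟨a, b, hb, rfl⟩ := hf z
  rw [map_div₀, map_div₀, div_le_one₀ (by rw [zero_lt_iff]; simpa using hb),
    div_le_one₀ (by rw [zero_lt_iff]; simpa using hb)]
  exact h.le_iff h' hg a b

theorem exists_zpow (h : TR v φ P s t) (hg : Gen φ P s) (hf : Frc φ) {z : K} (hz : z ≠ 0) :
    ∃ e : ℤ, v z = v t ^ e := by
  obtain ⟨a, b, hb, rfl⟩ := hf z
  obtain ⟨e, he⟩ := h.exists_pow hg (div_ne_zero_iff.1 hz).1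
  obtain ⟨e', he'⟩ := h.exists_pow hg hb
  exact ⟨e - e', by rw [map_div₀, he, he', zpow_sub₀ h.pos.ne', zpow_natCast, zpow_natCast]⟩

/-- units are quotients of two forms of the same degree -/
theorem exists_quot (h : TR v φ P s t) (hg : Gen φ P s) (hf : Frc φ) {z : K} (hz : v z = 1) :
    ∃ (e : ℕ) (G H : MvPolynomial ι A), G.IsHomogeneous e ∧ H.IsHomogeneous e ∧
      v (eval₂ φ (fun i => φ (s i) / t) G) = 1 ∧ v (eval₂ φ (fun i => φ (s i) / t) H) = 1 ∧
      z = eval₂ φ (fun i => φ (s i) / t) G / eval₂ φ (fun i => φ (s i) / t) H := by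
  obtain ⟨a, b, hb, rfl⟩ := hf z
  have ha : φ a ≠ 0 := fun h0 => by simp [h0] at hz
  obtain ⟨e, h1, h2⟩ := h.exists_ord ha
  obtain ⟨e', h3, h4⟩ := h.exists_ord hb
  rw [map_div₀, h.eq_pow hg h1 h2, h.eq_pow hg h3 h4, div_eq_one_iff_eq (pow_ne_zero _ h.pos.ne')]
    at hz
  obtain rfl : e = e' := pow_right_injective₀ h.pos h.tlt.ne hz
  obtain ⟨g, hg1, G, hG, h5, h6⟩ := h.exists_init hg h1 h2
  obtain ⟨g', hg2, H, hH, h7, h8⟩ := h.exists_init hg h3 h4
  refine ⟨e, C g' * G, C g * H, by simpa using (isHomogeneous_C _ g').mul hG,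
    by simpa using (isHomogeneous_C _ g).mul hH, ?_, ?_, ?_⟩
  · rw [eval₂_mul, eval₂_C, map_mul, h.eq_one hg2, h5, one_mul]
  · rw [eval₂_mul, eval₂_C, map_mul, h.eq_one hg1, h7, one_mul]
  · have h9 : φ g ≠ 0 := fun h0 => by simpa [h0] using h.eq_one hg1
    have h10 : eval₂ φ (fun i => φ (s i) / t) H ≠ 0 := fun h0 => by simp [h0] at h7
    rw [eval₂_mul, eval₂_C, eval₂_mul, eval₂_C, div_eq_div_iff hb (mul_ne_zero h9 h10)]
    refine mul_left_cancel₀ (pow_ne_zero e h.ne) ?_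
    linear_combination (-(φ g * φ a)) * h8 + φ g' * φ b * h6

/-- `t` is a uniformiser -/
theorem unif {v : Valuation K ℤᵐ⁰} (h : TR v φ P s t) (hg : Gen φ P s) (hf : Frc φ)
    (hu : ∃ z, v z = exp (-1)) : v t = exp (-1) := by
  obtain ⟨z, hz⟩ := hu
  obtain ⟨e, he⟩ := h.exists_zpow hg hf (z := z) fun h0 => by
    rw [h0, map_zero] at hz; exact exp_ne_zero hz.symm
  have h1 : v t = exp (log (v t)) := (exp_log h.pos.ne').symm
  have h2 : log (v t) < 0 := by
    have := h.tlt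
    rwa [h1, ← exp_zero, exp_lt_exp] at this
  rw [hz, h1, ← exp_zsmul, exp_inj, smul_eq_mul] at he
  rw [h1, exp_inj]
  have h3 : log (v t) ∣ 1 := ⟨-e, by linarith⟩
  rcases Int.isUnit_iff.1 (isUnit_of_dvd_one h3) with h4 | h4
  · omega
  · exact h4

end TR

end Crest.Agent.X262.Tr89
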